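import Vale.Agent.P166N.TreeRoot

/-!
P166: random trees with one Gaussian field per coordinate, each with its own variances along the levels.
-/

namespace Vale.Agent.P166F

open MeasureTheory ProbabilityTheory Filter
open Vale.Agent.P157 Vale.Agent.P166N
open scoped Topology

variable {ι : Type} [Fintype ι] {n : ℕ}

/-- The weight of a leaf for the exponents `m 1, …, m k`. -/
noncomputable def wgt (n : ℕ) : ∀ k, (ℕ → ℝ) → (Node n k → ℝ) → Leaf n k → ℝ
  | 0, _, _, _ => 1
  | k + 1, m, v, (a, l) =>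
    ((n : ℝ) * v (a, none)) ^ (-(1 / m 1)) * wgt n k (fun j => m (j + 1)) (fun u => v (a, some u)) l

/-- The field at a leaf; `R j i` is the accumulated variance of coordinate `i` at level `j`. -/
noncomputable def leafPt (k : ℕ) (R : ℕ → ι → ℝ) (l : Leaf n k)
    (z : Option (Node n k) → EuclideanSpace ℝ ι) : EuclideanSpace ℝ ι :=
  WithLp.toLp 2 fun i => ∑ ν, feat0 k (fun j => R j i) l ν * z ν i

/-- The nested average below the root. -/
noncomputable def nestVal : ℕ → (ℕ → ℝ) → (ℕ → ι → ℝ) → (EuclideanSpace ℝ ι → ℝ) →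
    EuclideanSpace ℝ ι → ℝ
  | 0, _, _, G, x => G x
  | k + 1, m, R, G, x =>
    Real.log (∫ z, Real.exp (m 1 * nestVal k (fun j => m (j + 1)) (fun j => R (j + 1)) G
      (x + WithLp.toLp 2 fun i => Real.sqrt (R 1 i - R 0 i) * z i))
        ∂stdGaussian (EuclideanSpace ℝ ι)) / m 1

/-- The nested average with the root. -/
noncomputable def nestRoot (k : ℕ) (m : ℕ → ℝ) (R : ℕ → ι → ℝ) (G : EuclideanSpace ℝ ι → ℝ) : ℝ :=
  ∫ z, nestVal k m R G (WithLp.toLp 2 fun i => Real.sqrt (R 0 i) * z i)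
    ∂stdGaussian (EuclideanSpace ℝ ι)

/-- The law of the marks of a tree. -/
noncomputable def markLaw (n k : ℕ) (ι : Type) [Fintype ι] :
    Measure ((Node n k → ℝ) × (Option (Node n k) → EuclideanSpace ℝ ι)) :=
  (Measure.pi fun _ => unif).prod (Measure.pi fun _ => stdGaussian (EuclideanSpace ℝ ι))

instance (n k : ℕ) (ι : Type) [Fintype ι] : IsProbabilityMeasure (markLaw n k ι) := by
  unfold markLaw; infer_instance

/-- The log-average of `exp G` over the leaves. -/
noncomputable def treeLog (k : ℕ) (m : ℕ → ℝ) (R : ℕ → ι → ℝ) (G : EuclideanSpace ℝ ι → ℝ)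
    (w : (Node n k → ℝ) × (Option (Node n k) → EuclideanSpace ℝ ι)) : ℝ :=
  Real.log ((∑ l, wgt n k m w.1 l * Real.exp (G (leafPt k R l w.2))) / ∑ l, wgt n k m w.1 l)

/-- The chance that two leaves of the tilted tree meet at level `j` or deeper. -/
noncomputable def meetGe (k : ℕ) (m : ℕ → ℝ) (R : ℕ → ι → ℝ) (G : EuclideanSpace ℝ ι → ℝ) (j : ℕ)
    (w : (Node n k → ℝ) × (Option (Node n k) → EuclideanSpace ℝ ι)) : ℝ :=
  (∑ l, ∑ l', if j ≤ meet k l l' then wgt n k m w.1 l * Real.exp (G (leafPt k R l w.2)) *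
      (wgt n k m w.1 l' * Real.exp (G (leafPt k R l' w.2))) else 0) /
    (∑ l, wgt n k m w.1 l * Real.exp (G (leafPt k R l w.2))) ^ 2

/-- Admissible exponents and variances. -/
structure TreeParam (k : ℕ) (m : ℕ → ℝ) (R : ℕ → ι → ℝ) : Prop where
  pos : ∀ j, 1 ≤ j → j ≤ k → 0 < m j ∧ m j < 1
  strict : ∀ j, 1 ≤ j → j < k → m j < m (j + 1)
  root : ∀ i, 0 ≤ R 0 i
  mono : ∀ j < k, ∀ i, R j i ≤ R (j + 1) i

end Vale.Agent.P166F
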