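import Vale.Agent.P166F.Tree.Lap

/-!
P166: the limit of the log-average over the leaves and its mean absolute deviation.
-/

namespace Vale.Agent.P166F

open MeasureTheory ProbabilityTheory Filter Set
open Vale.Agent.P157 Vale.Agent.P166N
open scoped Topology

variable {ι : Type} [Fintype ι] {n k : ℕ} {m : ℕ → ℝ} {G : EuclideanSpace ℝ ι → ℝ} {K : ℝ}

/-- The root and the node marks make the marks of a tree. -/
lemma measurePreserving_marks (n k : ℕ) :
    MeasurePreserving (fun p : EuclideanSpace ℝ ι × (Node n k → ℝ × EuclideanSpace ℝ ι) =>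
        ((fun u => (p.2 u).1), fun o : Option (Node n k) => o.elim p.1 fun u => (p.2 u).2))
      ((stdGaussian (EuclideanSpace ℝ ι)).prod (Measure.pi fun _ : Node n k => nodeMark ι))
      (markLaw n k ι) := by
  set γ := stdGaussian (EuclideanSpace ℝ ι)
  set V := Measure.pi fun _ : Node n k => unif
  set Z := Measure.pi fun _ : Node n k => γ
  have h1 := (MeasurePreserving.id γ).prod (measurePreserving_arrowProdEquivProdArrow ℝ
    (EuclideanSpace ℝ ι) (Node n k) (fun _ => unif) (fun _ => γ))
  have h2 : MeasurePreserving (fun p : EuclideanSpace ℝ ι × ((Node n k → ℝ) ×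
      (Node n k → EuclideanSpace ℝ ι)) => (p.2.1, (p.1, p.2.2))) (γ.prod (V.prod Z))
      (V.prod (γ.prod Z)) := by
    exact (measurePreserving_prodAssoc V γ Z).comp
      (((Measure.measurePreserving_swap (μ := γ) (ν := V)).prod (MeasurePreserving.id Z)).comp
        ((measurePreserving_prodAssoc γ V Z).symm MeasurableEquiv.prodAssoc))
  have h3 := (MeasurePreserving.id V).prod (measurePreserving_option γ (Node n k))
  exact h3.comp (h2.comp h1)

/-- The log-average over the leaves below a root value. -/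
noncomputable def lrho (k : ℕ) (m : ℕ → ℝ) (R : ℕ → ι → ℝ) (G : EuclideanSpace ℝ ι → ℝ)
    (x : EuclideanSpace ℝ ι) (w : Node n k → ℝ × EuclideanSpace ℝ ι) : ℝ :=
  Real.log (tsum' k m R G x (fun u => (w u).1) fun u => (w u).2) -
    Real.log (tsum' k m R (fun _ => 0) x (fun u => (w u).1) fun u => (w u).2)

variable {R : ℕ → ι → ℝ}

lemma treeLog_marks (hn : 1 ≤ n) (h : EuclideanSpace ℝ ι) {w : Node n k → ℝ × EuclideanSpace ℝ ι}
    (hw : ∀ u, 0 < (w u).1) :
    treeLog (n := n) k m R G ((fun u => (w u).1), fun o => o.elim h fun u => (w u).2) =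
      lrho k m R G (rootPt R h) w := by
  rw [lrho, ← Real.log_div (tsum'_pos hn m R _ hw _).ne' (tsum'_pos hn m R _ hw _).ne']
  simp only [treeLog, tsum', leafPt_eq, Option.elim, Real.exp_zero, mul_one]

lemma measurable_tsum_w (hG : Measurable G) (x : EuclideanSpace ℝ ι) :
    Measurable fun w : Node n k → ℝ × EuclideanSpace ℝ ι =>
      tsum' k m R G x (fun u => (w u).1) fun u => (w u).2 :=
  (measurable_tsum' hG k m R).comp (measurable_const.prodMk
    ((measurable_pi_lambda _ fun u => (measurable_pi_apply u).fst).prodMk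
      (measurable_pi_lambda _ fun u => (measurable_pi_apply u).snd)))

lemma abs_lrho_sub_le (hG : RSB.Lip K G) (hn : 1 ≤ n) (x y : EuclideanSpace ℝ ι)
    {w : Node n k → ℝ × EuclideanSpace ℝ ι} (hw : ∀ u, 0 < (w u).1) :
    |lrho k m R G (x + y) w - lrho k m R G x w| ≤ K * ‖y‖ := by
  have := nonempty_leaf hn k
  simp only [lrho, tsum', Real.exp_zero, mul_one, sub_sub_sub_cancel_right]
  refine abs_logsum_sub_le (wgt_pos hn hw) fun l => ?_
  rw [add_right_comm]
  exact hG.lip _ y

variable (hm : ∀ j, 1 ≤ j → j ≤ k → 0 < m j ∧ m j < 1) (hs : ∀ j, 1 ≤ j → j < k → m j < m (j + 1))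
include hm hs

lemma hd_levs_le : hd Prod.fst (levs k m R) ≤ 1 := hd_le_one (incr_levs R hm hs)

lemma integral_log_tsum' (hG : RSB.Lip K G) (hn : 1 ≤ n) (x : EuclideanSpace ℝ ι) :
    Integrable (fun w => Real.log (tsum' k m R G x (fun u => (w u).1) fun u => (w u).2))
        (Measure.pi fun _ : Node n k => nodeMark ι) ∧
      ∫ w, Real.log (tsum' k m R G x (fun u => (w u).1) fun u => (w u).2)
        ∂Measure.pi (fun _ : Node n k => nodeMark ι) =
      logLap (stdGaussian (EuclideanSpace ℝ ι)) Prod.fst shf n (levs k m R) G x := by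
  have hinc := incr_levs R hm hs
  obtain ⟨A, -, hb⟩ := lap_bounds hG hinc (good_levs R fun j h1 h2 => (hm j h1 h2).1)
  obtain ⟨h1, h2⟩ := log_of_laplace (P := Measure.pi fun _ : Node n k => nodeMark ι)
    (measurable_tsum_w hG.meas x) (ae_mark_pos.mono fun w hw => tsum'_pos hn m R x hw _) (hd_pos hinc)
    (hd_le_one hinc) (A := A * Real.exp (hd Prod.fst (levs k m R) * K * ‖x‖)) fun t ht => by
      rw [integral_exp_tsum' hG.meas hn k m R x ht.le]
      exact hb n hn x t ht
  refine ⟨h1, h2.trans (setIntegral_congr_fun measurableSet_Ioi fun t ht => ?_)⟩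
  rw [integral_exp_tsum' hG.meas hn k m R x (le_of_lt ht)]

lemma integrable_lrho (hG : RSB.Lip K G) (hn : 1 ≤ n) (x : EuclideanSpace ℝ ι) :
    Integrable (lrho k m R G x) (Measure.pi fun _ : Node n k => nodeMark ι) :=
  (integral_log_tsum' hm hs hG hn x).1.sub (integral_log_tsum' hm hs RSB.lip_zero hn x).1

/-- The mean below a root value. -/
theorem tendsto_lrho (hG : RSB.Lip K G) (x : EuclideanSpace ℝ ι) :
    Tendsto (fun n => ∫ w, lrho k m R G x w ∂Measure.pi fun _ : Node n k => nodeMark ι) atTop
      (𝓝 (nestVal k m R G x)) := by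
  have hg := good_levs (ι := ι) R fun j h1 h2 => (hm j h1 h2).1
  have h1 := (tendsto_logLap hG (incr_levs R hm hs) hg x).sub
    (tendsto_logLap RSB.lip_zero (incr_levs R hm hs) hg x)
  rw [RSB.casc_zero (fun i hi => (hg i hi).1.ne') x, zero_add, add_sub_cancel_right, ← nestVal_eq] at h1
  refine h1.congr' ((eventually_ge_atTop 1).mono fun n hn => ?_)
  obtain ⟨i1, e1⟩ := integral_log_tsum' hm hs (R := R) hG hn x
  obtain ⟨i2, e2⟩ := integral_log_tsum' hm hs (R := R) (G := fun _ : EuclideanSpace ℝ ι => (0 : ℝ))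
    RSB.lip_zero hn x
  rw [← e1, ← e2]
  exact (integral_sub i1 i2).symm

/-- The limit of the mean of `log (1 + exp (X - a))`. -/
theorem tendsto_posPart (hG : RSB.Lip K G) (x : EuclideanSpace ℝ ι) :
    Tendsto (fun n => ∫ w, Real.log (1 + Real.exp (-nestVal k m R G x) *
        tsum' k m R G x (fun u => (w u).1) fun u => (w u).2)
      ∂Measure.pi fun _ : Node n k => nodeMark ι) atTop
      (𝓝 (∫ t in Ioi 0, Real.exp (-t) * (1 - lam (mlist k m) t) / t)) := by
  have hg := good_levs (ι := ι) R fun j h1 h2 => (hm j h1 h2).1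
  have hinc := incr_levs R hm hs
  obtain ⟨A, hA, hb⟩ := lap_bounds hG hinc hg
  set p := hd Prod.fst (levs k m R)
  set A' := A * Real.exp (p * K * ‖x‖)
  set c := Real.exp (-nestVal k m R G x)
  have hc : 0 < c := Real.exp_pos _
  have hA' : 0 ≤ A' := by positivity
  set L := fun n t => lap (stdGaussian (EuclideanSpace ℝ ι)) Prod.fst shf n (levs k m R) G x t
  set F := fun n t => Real.exp (-t) * (1 - L n (c * t)) / t
  have hp0 : 0 < p := hd_pos hinc
  have hval : ∀ n, 1 ≤ n → ∫ w, Real.log (1 + c * tsum' k m R G x (fun u => (w u).1) fun u => (w u).2)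
      ∂(Measure.pi fun _ : Node n k => nodeMark ι) = ∫ t in Ioi 0, F n t := fun n hn => by
    refine (log_add_of_laplace (measurable_tsum_w hG.meas x)
      (ae_mark_pos.mono fun w hw => tsum'_pos hn m R x hw _) hA' hp0 (hd_le_one hinc)
      (fun t ht => ?_) hc).2.trans (setIntegral_congr_fun measurableSet_Ioi fun t ht => ?_)
    · rw [integral_exp_tsum' hG.meas hn k m R x ht.le]
      exact hb n hn x t ht
    · have ht : (0 : ℝ) < t := ht
      simp only [F, L]
      rw [← integral_exp_tsum' hG.meas hn k m R x (by positivity : (0 : ℝ) ≤ c * t)]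
  refine Tendsto.congr' ((eventually_ge_atTop 1).mono fun n hn => (hval n hn).symm)
    (tendsto_integral_filter_of_dominated_convergence (logDom p (A' * (c ^ p + c ^ (-p)) + 1))
      (Eventually.of_forall fun n => ?_) ((eventually_ge_atTop 1).mono fun n hn =>
        (ae_restrict_mem measurableSet_Ioi).mono fun t ht => ?_) (integrableOn_logDom hp0 _)
      ((ae_restrict_mem measurableSet_Ioi).mono fun t ht => ?_))
  · exact ((measurable_id.neg.exp.mul (((measurable_lap hG.meas n hg).comp
      (measurable_const.prodMk (measurable_id.const_mul c))).const_sub 1)).div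
        measurable_id).aestronglyMeasurable
  · have ht : (0 : ℝ) < t := ht
    have hy : 0 < c * t := mul_pos hc ht
    obtain ⟨h1, h2⟩ := hb n hn x (c * t) hy
    have hm' := lap_mem (γ := stdGaussian (EuclideanSpace ℝ ι)) (m := Prod.fst) (σ := shf) (G := G)
      n (levs k m R) x hy.le
    have hcn : 0 ≤ c ^ (-p) := (Real.rpow_pos_of_pos hc _).le
    have hcp : 0 ≤ c ^ p := (Real.rpow_pos_of_pos hc _).le
    have htp : 0 ≤ t ^ p := (Real.rpow_pos_of_pos ht _).le
    have htn : 0 ≤ t ^ (-p) := (Real.rpow_pos_of_pos ht _).le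
    rw [Real.mul_rpow hc.le ht.le] at h1
    have he := Real.exp_le_one_iff.2 (neg_nonpos.2 ht.le)
    have he0 := (Real.exp_pos (-t)).le
    rw [Real.norm_eq_abs, abs_of_nonneg (div_nonneg (mul_nonneg he0 (sub_nonneg.2 hm'.2)) ht.le),
      div_le_iff₀ ht]
    unfold logDom
    split_ifs with h
    · rw [add_mul, mul_assoc, ← Real.rpow_add_one ht.ne', sub_add_cancel, one_mul]
      refine (mul_le_of_le_one_left (sub_nonneg.2 hm'.2) he).trans ?_
      nlinarith [h1, mul_nonneg (mul_nonneg hA' hcn) htp]
    · rw [mul_assoc, ← Real.rpow_add_one ht.ne', sub_add_cancel]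
      have hti : Real.exp (-t) ≤ t ^ (-p) := by
        refine le_trans ?_ (Real.rpow_le_rpow_of_exponent_le (not_le.1 h).le (neg_le_neg (hd_le_one hinc)))
        rw [Real.rpow_neg_one, Real.exp_neg]
        exact inv_anti₀ ht (by linarith [Real.add_one_le_exp t])
      refine (mul_le_of_le_one_right he0 (sub_le_self _ hm'.1)).trans (hti.trans ?_)
      nlinarith [mul_nonneg (mul_nonneg hA' (add_nonneg hcp hcn)) htn]
  · have ht : (0 : ℝ) < t := ht
    have h := tendsto_lap hG hinc hg x (mul_pos hc ht)
    rw [map_levs, ← nestVal_eq, show Real.exp (nestVal k m R G x) * (c * t) = t by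
      simp only [c, ← mul_assoc, ← Real.exp_add, add_neg_cancel, Real.exp_zero, one_mul]] at h
    exact ((h.const_sub 1).const_mul _).div_const t

/-- The deviation constant of the exponents. -/
noncomputable def devConst (k : ℕ) (m : ℕ → ℝ) : ℝ :=
  2 * (2 * (∫ t in Ioi 0, Real.exp (-t) * (1 - lam (mlist k m) t) / t) - logConst (mlist k m))

/-- Below a root value the deviation is bounded by a constant of the exponents. -/
theorem eventually_dev (hG : RSB.Lip K G) (x : EuclideanSpace ℝ ι) {ε : ℝ} (hε : 0 < ε) :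
    ∀ᶠ n in atTop, ∫ w, |lrho k m R G x w - nestVal k m R G x|
      ∂(Measure.pi fun _ : Node n k => nodeMark ι) ≤ devConst k m + ε := by
  have hg := good_levs (ι := ι) R fun j h1 h2 => (hm j h1 h2).1
  have hinc := incr_levs R hm hs
  have hz : RSB.Lip 0 fun _ : EuclideanSpace ℝ ι => (0 : ℝ) := RSB.lip_zero
  have hd1 := ((tendsto_posPart hm hs (R := R) hG x).const_mul 2).sub
    ((tendsto_logLap hG hinc hg x).sub_const (nestVal k m R G x))
  have hd2 := ((tendsto_posPart hm hs (R := R) hz x).const_mul 2).sub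
    ((tendsto_logLap hz hinc hg x).sub_const (nestVal k m R (fun _ => 0) x))
  simp only [nestVal_eq, map_levs, add_sub_cancel_left] at hd1 hd2
  have hlim := hd1.add hd2
  rw [← two_mul] at hlim
  filter_upwards [hlim.eventually_le_const (lt_add_of_pos_right (devConst k m) hε),
    eventually_ge_atTop 1] with n hn hn1
  refine le_trans ?_ hn
  simp only [← nestVal_eq]
  have e0 : nestVal k m R (fun _ => (0 : ℝ)) x = 0 := by
    rw [nestVal_eq]; exact RSB.casc_zero (fun i hi => (hg i hi).1.ne') x
  obtain ⟨i1, e1⟩ := integral_log_tsum' hm hs (R := R) hG hn1 x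
  obtain ⟨i2, e2⟩ := integral_log_tsum' hm hs (R := R) hz hn1 x
  set P := Measure.pi fun _ : Node n k => nodeMark ι
  set T := fun (H : EuclideanSpace ℝ ι → ℝ) (w : Node n k → ℝ × EuclideanSpace ℝ ι) =>
    tsum' k m R H x (fun u => (w u).1) fun u => (w u).2
  have iP : ∀ (H : EuclideanSpace ℝ ι → ℝ) (L : ℝ), RSB.Lip L H →
      Integrable (fun w => Real.log (1 + Real.exp (-nestVal k m R H x) * T H w)) P := fun H L hH => by
    obtain ⟨A, hA, hb⟩ := lap_bounds hH hinc hg
    refine (log_add_of_laplace (measurable_tsum_w hH.meas x)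
      (ae_mark_pos.mono fun w hw => tsum'_pos hn1 m R x hw _)
      (A := A * Real.exp (hd Prod.fst (levs k m R) * L * ‖x‖)) (by positivity) (hd_pos hinc)
      (hd_le_one hinc) (fun t ht => ?_) (Real.exp_pos _)).1
    rw [integral_exp_tsum' hH.meas hn1 k m R x ht.le]
    exact hb n hn1 x t ht
  have key : ∀ (a T : ℝ), 0 < T →
      |Real.log T - a| ≤ 2 * Real.log (1 + Real.exp (-a) * T) - (Real.log T - a) := fun a T hT => by
    have h0 : 0 ≤ Real.log (1 + Real.exp (-a) * T) :=
      Real.log_nonneg (le_add_of_nonneg_right (by positivity))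
    have h1 : Real.log T - a ≤ Real.log (1 + Real.exp (-a) * T) := by
      have h := Real.log_le_log (mul_pos (Real.exp_pos (-a)) hT)
        (le_add_of_nonneg_left (zero_le_one' ℝ))
      rw [Real.log_mul (Real.exp_pos _).ne' hT.ne', Real.log_exp] at h
      linarith
    rw [abs_le]
    constructor <;> linarith
  have j1 : Integrable (fun w => Real.log (T G w) - nestVal k m R G x) P :=
    i1.sub (integrable_const _)
  have j2 : Integrable (fun w => Real.log (T (fun _ => 0) w) - nestVal k m R (fun _ => (0 : ℝ)) x) P :=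
    i2.sub (integrable_const _)
  refine (integral_mono_ae (((integrable_lrho hm hs (R := R) hG hn1 x).sub (integrable_const _)).abs)
    ((((iP G K hG).const_mul 2).sub j1).add (((iP _ 0 hz).const_mul 2).sub j2))
    (ae_mark_pos.mono fun w hw => ?_)).trans_eq ?_
  · simp only [Pi.add_apply, Pi.sub_apply]
    refine le_trans ?_ (add_le_add (key (nestVal k m R G x) _ (tsum'_pos hn1 m R x hw _))
      (key (nestVal k m R (fun _ => 0) x) _ (tsum'_pos hn1 m R x hw _)))
    rw [lrho, e0, sub_zero]
    refine le_trans (le_of_eq ?_) (abs_sub _ _)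
    congr 1
    ring
  · simp only [Pi.add_apply, Pi.sub_apply]
    rw [integral_add (((iP G K hG).const_mul 2).sub' j1) (((iP _ 0 hz).const_mul 2).sub' j2),
      integral_sub ((iP G K hG).const_mul 2) j1, integral_sub ((iP _ 0 hz).const_mul 2) j2,
      integral_sub i1 (integrable_const _), integral_sub i2 (integrable_const _),
      integral_const_mul, integral_const_mul]
    simp only [integral_const, probReal_univ, one_smul]
    rw [e1, e2]

omit hs in
lemma lip_nestVal (hG : RSB.Lip K G) (x y : EuclideanSpace ℝ ι) :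
    |nestVal k m R G (x + y) - nestVal k m R G x| ≤ K * ‖y‖ := by
  simp only [nestVal_eq]
  exact (hG.casc (good_levs R fun j h1 h2 => (hm j h1 h2).1)).lip x y

end Vale.Agent.P166F
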