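import Vale.Agent.P157.Gauss

/-!
P166: the mean logarithm of a mixture of exponentials of Gaussian forms which are either equal or
independent, to second order.
-/

namespace Vale.Agent.P166F

open MeasureTheory ProbabilityTheory

variable {I : Type} [Fintype I] {L : Type} [Fintype L]

/-- The law of independent standard Gaussians. -/
noncomputable def gLaw (I : Type) [Fintype I] : Measure (I → ℝ) :=
  Measure.pi fun _ : I => gaussianReal 0 1

instance : IsProbabilityMeasure (gLaw I) := by unfold gLaw; infer_instance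

lemma integral_exp_form (a : I → ℝ) :
    Integrable (fun y => Real.exp (∑ ν, a ν * y ν)) (gLaw I) ∧
      ∫ y, Real.exp (∑ ν, a ν * y ν) ∂gLaw I = Real.exp ((∑ ν, a ν ^ 2) / 2) := by
  have h1 : ∀ c : ℝ, Integrable (fun x => Real.exp (c * x)) (gaussianReal 0 1) :=
    fun c => integrable_exp_mul_gaussianReal c
  have h2 : ∀ c : ℝ, ∫ x, Real.exp (c * x) ∂gaussianReal 0 1 = Real.exp (c ^ 2 / 2) := fun c => by
    have := congrFun (mgf_id_gaussianReal (μ := (0 : ℝ)) (v := (1 : NNReal))) c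
    simpa [mgf] using this
  simp only [Real.exp_sum, gLaw]
  refine ⟨Integrable.fintype_prod fun ν => h1 (a ν), ?_⟩
  rw [integral_fintype_prod_eq_prod (fun ν x => Real.exp (a ν * x))]
  simp only [h2, ← Real.exp_sum, Finset.sum_div]

/-- The logarithm near one, with a bound valid on the whole half-line. -/
lemma abs_log_quad_le {u : ℝ} (hu : -1 < u) :
    |Real.log (1 + u) - u + u ^ 2 / 2| ≤ 2 * |u| ^ 3 * (1 + (1 + u)⁻¹) := by
  have hp : 0 < 1 + u := by linarith
  have hi : 0 ≤ (1 + u)⁻¹ := (inv_pos.2 hp).le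
  have h3 : 0 ≤ |u| ^ 3 := by positivity
  rcases lt_or_ge |u| (1 / 2) with h | h
  · have := Real.abs_log_sub_add_sum_range_le (x := -u) (by rw [abs_neg]; linarith) 2
    simp only [Finset.sum_range_succ, Finset.sum_range_zero, abs_neg, sub_neg_eq_add] at this
    norm_num at this
    rw [show Real.log (1 + u) - u + u ^ 2 / 2 = -u + u ^ 2 / 2 + Real.log (1 + u) by ring]
    refine this.trans ?_
    rw [div_le_iff₀ (by linarith)]
    nlinarith [mul_nonneg h3 hi, mul_nonneg (mul_nonneg h3 hi) (by linarith : (0 : ℝ) ≤ 1 - |u|)]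
  · have h1 := Real.log_le_sub_one_of_pos hp
    have h2 := Real.one_sub_inv_le_log_of_pos hp
    have e : 1 - (1 + u)⁻¹ = u - u ^ 2 * (1 + u)⁻¹ := by field_simp; ring
    have hu2 : u ^ 2 ≤ 2 * |u| ^ 3 := by nlinarith [sq_abs u, sq_nonneg |u|]
    rw [abs_le]
    constructor <;> nlinarith [mul_le_mul_of_nonneg_right hu2 hi, mul_nonneg h3 hi]

lemma exp_near {x : ℝ} (hx : |x| ≤ 1) : |Real.exp x - 1 - x| ≤ x ^ 2 :=
  Real.abs_exp_sub_one_sub_id_le hx

/-- The two Jensen inequalities used for the powers of the deviation of a mixture. -/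
lemma mix_powers {ρ b c : L → ℝ} (hρ : ∀ l, 0 < ρ l) (hc : ∀ l, 0 < c l) :
    (∑ l, ρ l * b l) ^ 2 / ∑ l, ρ l * c l ≤ ∑ l, ρ l * (b l ^ 2 / c l) := by
  refine (Finset.sq_sum_div_le_sum_sq_div Finset.univ (fun l => ρ l * b l)
    (fun l _ => mul_pos (hρ l) (hc l))).trans_eq (Finset.sum_congr rfl fun l _ => ?_)
  have := (hρ l).ne'
  have := (hc l).ne'
  field_simp

/-- The logarithm of a mixture of exponentials of Gaussian forms, to second order. -/
theorem abs_logmix_le {ρ : L → ℝ} (hρ : ∀ l, 0 < ρ l) (hsum : ∑ l, ρ l = 1) (c : L → I → ℝ)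
    (B : L → L → Prop) [DecidableRel B]
    (hc : ∀ l, ∑ ν, c l ν ^ 2 = 1)
    (hB : ∀ l l', ∑ ν, c l ν * c l' ν = if B l l' then 1 else 0) {s : ℝ} (hs : 0 < s)
    (hs1 : s ≤ 1 / 4) :
    Integrable (fun y => Real.log (∑ l, ρ l * Real.exp (s * ∑ ν, c l ν * y ν))) (gLaw I) ∧
      |(∫ y, Real.log (∑ l, ρ l * Real.exp (s * ∑ ν, c l ν * y ν)) ∂gLaw I) -
        s ^ 2 / 2 * (1 - ∑ l, ∑ l', if B l l' then ρ l * ρ l' else 0)| ≤ 700 * s ^ 3 := by
  classical
  have hne : Nonempty L := not_isEmpty_iff.1 fun h => by simp at hsum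
  set Y : L → (I → ℝ) → ℝ := fun l y => ∑ ν, c l ν * y ν with hY
  set a := s ^ 2 / 2 with ha
  set M := ∑ l, ∑ l', if B l l' then ρ l * ρ l' else 0 with hM
  have he : ∀ (t : ℝ) (l : L), Integrable (fun y => Real.exp (t * Y l y)) (gLaw I) ∧
      ∫ y, Real.exp (t * Y l y) ∂gLaw I = Real.exp (t ^ 2 / 2) := fun t l => by
    have h := integral_exp_form fun ν => t * c l ν
    simp only [mul_assoc, ← Finset.mul_sum, mul_pow, hc, mul_one] at h
    exact h
  have he2 : ∀ l l', Integrable (fun y => Real.exp (s * Y l y) * Real.exp (s * Y l' y)) (gLaw I) ∧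
      ∫ y, Real.exp (s * Y l y) * Real.exp (s * Y l' y) ∂gLaw I =
        Real.exp (2 * a) + (Real.exp (4 * a) - Real.exp (2 * a)) * if B l l' then 1 else 0 := fun l l' => by
    have h := integral_exp_form fun ν => s * c l ν + s * c l' ν
    have e : ∑ ν, (s * c l ν + s * c l' ν) ^ 2 = 4 * a + 4 * a * if B l l' then 1 else 0 := by
      rw [← hB l l', Finset.mul_sum]
      calc ∑ ν, (s * c l ν + s * c l' ν) ^ 2
          = ∑ ν, (s ^ 2 * c l ν ^ 2 + s ^ 2 * c l' ν ^ 2 + 4 * a * (c l ν * c l' ν)) :=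
            Finset.sum_congr rfl fun ν _ => by rw [ha]; ring
        _ = _ := by
            rw [Finset.sum_add_distrib, Finset.sum_add_distrib, ← Finset.mul_sum, ← Finset.mul_sum, hc,
              hc, ha]
            ring
    simp only [add_mul, Finset.sum_add_distrib, mul_assoc, ← Finset.mul_sum, Real.exp_add] at h
    rw [e] at h
    refine ⟨h.1, h.2.trans ?_⟩
    split_ifs <;> ring_nf
  set Z : (I → ℝ) → ℝ := fun y => ∑ l, ρ l * Real.exp (s * Y l y) with hZ
  have hZp : ∀ y, 0 < Z y := fun y =>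
    Finset.sum_pos (fun l _ => mul_pos (hρ l) (Real.exp_pos _)) Finset.univ_nonempty
  -- the second moment
  have hZ2 : Integrable (fun y => Z y ^ 2) (gLaw I) ∧
      ∫ y, Z y ^ 2 ∂gLaw I = Real.exp (2 * a) + (Real.exp (4 * a) - Real.exp (2 * a)) * M := by
    have e : ∀ y, Z y ^ 2 = ∑ l, ∑ l', ρ l * ρ l' * (Real.exp (s * Y l y) * Real.exp (s * Y l' y)) :=
      fun y => by
        rw [sq, hZ, Finset.sum_mul_sum]
        exact Finset.sum_congr rfl fun l _ => Finset.sum_congr rfl fun l' _ => by ring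
    simp only [e]
    refine ⟨integrable_finsetSum _ fun l _ => integrable_finsetSum _ fun l' _ =>
      (he2 l l').1.const_mul _, ?_⟩
    rw [integral_finsetSum _ fun l _ => integrable_finsetSum _ fun l' _ => (he2 l l').1.const_mul _]
    simp only [integral_finsetSum _ fun l' _ => (he2 _ l').1.const_mul _, integral_const_mul,
      (he2 _ _).2, mul_add, Finset.sum_add_distrib, ← Finset.sum_mul, ← Finset.mul_sum, hsum]
    rw [one_mul, one_mul, hM, Finset.mul_sum]
    congr 1
    refine Finset.sum_congr rfl fun l _ => ?_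
    rw [Finset.mul_sum]
    exact Finset.sum_congr rfl fun l' _ => by split_ifs <;> ring
  have hZ1 : Integrable Z (gLaw I) ∧ ∫ y, Z y ∂gLaw I = Real.exp a := by
    refine ⟨integrable_finsetSum _ fun l _ => (he s l).1.const_mul _, ?_⟩
    rw [hZ, integral_finsetSum _ fun l _ => (he s l).1.const_mul _]
    simp only [integral_const_mul, (he _ _).2, ← Finset.sum_mul, hsum, one_mul, ha]
  -- upper bounds of the remainders
  set q : (I → ℝ) → ℝ := fun y => ∑ l, ρ l *
    ((Real.exp (4 * s * Y l y) - 3 * Real.exp (3 * s * Y l y) + 2 * Real.exp (2 * s * Y l y) +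
        2 * Real.exp (s * Y l y) - 3 + Real.exp (-s * Y l y)) / s +
      s * (Real.exp (2 * s * Y l y) - Real.exp (s * Y l y) - 1 + Real.exp (-s * Y l y))) with hq
  have hqi : ∀ l, Integrable (fun y => ρ l *
      ((Real.exp (4 * s * Y l y) - 3 * Real.exp (3 * s * Y l y) + 2 * Real.exp (2 * s * Y l y) +
          2 * Real.exp (s * Y l y) - 3 + Real.exp (-s * Y l y)) / s +
        s * (Real.exp (2 * s * Y l y) - Real.exp (s * Y l y) - 1 + Real.exp (-s * Y l y)))) (gLaw I) ∧
      ∫ y, ρ l * ((Real.exp (4 * s * Y l y) - 3 * Real.exp (3 * s * Y l y) +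
          2 * Real.exp (2 * s * Y l y) + 2 * Real.exp (s * Y l y) - 3 + Real.exp (-s * Y l y)) / s +
        s * (Real.exp (2 * s * Y l y) - Real.exp (s * Y l y) - 1 + Real.exp (-s * Y l y))) ∂gLaw I =
      ρ l * ((Real.exp (16 * a) - 3 * Real.exp (9 * a) + 2 * Real.exp (4 * a) + 3 * Real.exp a - 3) / s +
        s * (Real.exp (4 * a) - 1)) := fun l => by
    have f4 := (he (4 * s) l).1
    have f3 := (he (3 * s) l).1
    have f2 := (he (2 * s) l).1
    have f1 := (he s l).1
    have g1 := (he (-s) l).1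
    have i1 := ((((f4.sub' (f3.const_mul 3)).fun_add (f2.const_mul 2)).fun_add (f1.const_mul 2)).sub'
      (integrable_const (3 : ℝ))).fun_add g1
    have i2 := ((f2.sub' f1).sub' (integrable_const (1 : ℝ))).fun_add g1
    refine ⟨((i1.div_const s).fun_add (i2.const_mul s)).const_mul (ρ l), ?_⟩
    rw [integral_const_mul, integral_add (i1.div_const s) (i2.const_mul s), integral_div, integral_const_mul,
      integral_add ((((f4.sub' (f3.const_mul 3)).fun_add (f2.const_mul 2)).fun_add (f1.const_mul 2)).sub'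
        (integrable_const _)) g1,
      integral_sub (((f4.sub' (f3.const_mul 3)).fun_add (f2.const_mul 2)).fun_add (f1.const_mul 2))
        (integrable_const _),
      integral_add ((f4.sub' (f3.const_mul 3)).fun_add (f2.const_mul 2)) (f1.const_mul 2),
      integral_add (f4.sub' (f3.const_mul 3)) (f2.const_mul 2), integral_sub f4 (f3.const_mul 3),
      integral_add ((f2.sub' f1).sub' (integrable_const _)) g1,
      integral_sub (f2.sub' f1) (integrable_const _), integral_sub f2 f1]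
    simp only [integral_const_mul, (he _ l).2, integral_const, probReal_univ, one_smul]
    rw [ha]
    ring_nf
  have hqI : Integrable q (gLaw I) ∧ ∫ y, q y ∂gLaw I =
      (Real.exp (16 * a) - 3 * Real.exp (9 * a) + 2 * Real.exp (4 * a) + 3 * Real.exp a - 3) / s +
        s * (Real.exp (4 * a) - 1) := by
    refine ⟨integrable_finsetSum _ fun l _ => (hqi l).1, ?_⟩
    rw [hq, integral_finsetSum _ fun l _ => (hqi l).1]
    simp only [(hqi _).2, ← Finset.sum_mul, hsum, one_mul]
  -- the pointwise bound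
  have hpt : ∀ y, |Real.log (Z y) - (Z y - 1) + (Z y - 1) ^ 2 / 2| ≤ q y := fun y => by
    set b : L → ℝ := fun l => Real.exp (s * Y l y) - 1
    set e : L → ℝ := fun l => Real.exp (s * Y l y)
    have hu : ∑ l, ρ l * b l = Z y - 1 := by
      simp only [b, mul_sub, mul_one, Finset.sum_sub_distrib, hsum, hZ]
    have hez : ∑ l, ρ l * e l = Z y := rfl
    have p1 := mix_powers (b := b) hρ (c := fun _ => (1 : ℝ)) fun _ => one_pos
    have p2 := mix_powers (b := b) hρ (c := e) fun _ => Real.exp_pos _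
    have p3 := mix_powers (b := fun l => b l ^ 2) hρ (c := fun _ => (1 : ℝ)) fun _ => one_pos
    have p4 := mix_powers (b := fun l => b l ^ 2) hρ (c := e) fun _ => Real.exp_pos _
    simp only [mul_one, div_one, hsum, hu, hez] at p1 p2 p3 p4
    set u := Z y - 1
    have hz := hZp y
    have p1' : (u ^ 2) ^ 2 ≤ (∑ l, ρ l * b l ^ 2) ^ 2 := pow_le_pow_left₀ (sq_nonneg u) p1 2
    have p4' : (u ^ 2) ^ 2 / Z y ≤ ∑ l, ρ l * ((b l ^ 2) ^ 2 / e l) :=
      (div_le_div_of_nonneg_right p1' hz.le).trans p4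
    have h3 : 2 * |u| ^ 3 ≤ (u ^ 2) ^ 2 / s + s * u ^ 2 := by
      rw [show 2 * |u| ^ 3 = |u| ^ 2 * (2 * |u|) by ring,
        show (u ^ 2) ^ 2 / s + s * u ^ 2 = |u| ^ 2 * (u ^ 2 / s + s) by rw [sq_abs]; ring]
      refine mul_le_mul_of_nonneg_left ?_ (sq_nonneg _)
      rw [div_add' _ _ _ hs.ne', le_div_iff₀ hs]
      nlinarith [sq_nonneg (|u| - s), sq_abs u]
    have hl := abs_log_quad_le (u := u) (by simp only [u]; linarith)
    rw [show 1 + u = Z y by simp only [u]; ring] at hl
    refine hl.trans (le_trans (mul_le_mul_of_nonneg_right h3 (by positivity)) ?_)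
    calc ((u ^ 2) ^ 2 / s + s * u ^ 2) * (1 + (Z y)⁻¹)
        = ((u ^ 2) ^ 2 + (u ^ 2) ^ 2 / Z y) / s + s * (u ^ 2 + u ^ 2 / Z y) := by ring
      _ ≤ ((∑ l, ρ l * (b l ^ 2) ^ 2) + ∑ l, ρ l * ((b l ^ 2) ^ 2 / e l)) / s +
          s * ((∑ l, ρ l * b l ^ 2) + ∑ l, ρ l * (b l ^ 2 / e l)) :=
        add_le_add (div_le_div_of_nonneg_right (add_le_add (p1'.trans p3) p4') hs.le)
          (mul_le_mul_of_nonneg_left (add_le_add p1 p2) hs.le)
      _ = q y := by
        simp only [hq, ← Finset.sum_add_distrib, Finset.sum_div, Finset.mul_sum]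
        refine Finset.sum_congr rfl fun l _ => ?_
        simp only [b, e, neg_mul, Real.exp_neg]
        rw [show 4 * s * Y l y = ((4 : ℕ) : ℝ) * (s * Y l y) by push_cast; ring,
          show 3 * s * Y l y = ((3 : ℕ) : ℝ) * (s * Y l y) by push_cast; ring,
          show 2 * s * Y l y = ((2 : ℕ) : ℝ) * (s * Y l y) by push_cast; ring,
          Real.exp_nat_mul, Real.exp_nat_mul, Real.exp_nat_mul]
        have := (Real.exp_pos (s * Y l y)).ne'
        field_simp
        ring
  have hlogm : AEStronglyMeasurable (fun y => Real.log (Z y)) (gLaw I) := by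
    have : Measurable Z := by simp only [hZ, hY]; fun_prop
    exact this.log.aestronglyMeasurable
  have hu2 : Integrable (fun y => (Z y - 1) ^ 2) (gLaw I) :=
    ((hZ2.1.sub' (hZ1.1.const_mul 2)).fun_add (integrable_const (1 : ℝ))).congr
      (Filter.Eventually.of_forall fun y => by ring)
  have hu1 : Integrable (fun y => Z y - 1) (gLaw I) := hZ1.1.sub' (integrable_const _)
  have hr : Integrable (fun y => Real.log (Z y) - (Z y - 1) + (Z y - 1) ^ 2 / 2) (gLaw I) :=
    hqI.1.mono' ((hlogm.sub hu1.aestronglyMeasurable).add (hu2.div_const 2).aestronglyMeasurable)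
      (Filter.Eventually.of_forall fun y => (Real.norm_eq_abs _).le.trans (hpt y))
  have hlog : Integrable (fun y => Real.log (Z y)) (gLaw I) :=
    ((hr.fun_add hu1).sub' (hu2.div_const 2)).congr (Filter.Eventually.of_forall fun y => by ring)
  refine ⟨hlog, ?_⟩
  have hR : |∫ y, (Real.log (Z y) - (Z y - 1) + (Z y - 1) ^ 2 / 2) ∂gLaw I| ≤ ∫ y, q y ∂gLaw I :=
    abs_integral_le_integral_abs.trans (integral_mono hr.abs hqI.1 hpt)
  have e2 : ∫ y, (Z y - 1) ^ 2 ∂gLaw I =
      Real.exp (2 * a) + (Real.exp (4 * a) - Real.exp (2 * a)) * M - 2 * Real.exp a + 1 := by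
    rw [← hZ2.2, ← hZ1.2]
    calc ∫ y, (Z y - 1) ^ 2 ∂gLaw I = ∫ y, (Z y ^ 2 - 2 * Z y + 1) ∂gLaw I :=
          integral_congr_ae (Filter.Eventually.of_forall fun y => by ring)
      _ = _ := by
          rw [integral_add (hZ2.1.sub' (hZ1.1.const_mul 2)) (integrable_const _),
            integral_sub hZ2.1 (hZ1.1.const_mul 2), integral_const_mul]
          simp
  rw [integral_add (hlog.sub' hu1) (hu2.div_const 2), integral_sub hlog hu1,
    integral_sub hZ1.1 (integrable_const _), integral_div, hZ1.2, e2, hqI.2] at hR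
  simp only [integral_const, probReal_univ, one_smul] at hR
  have hM0 : 0 ≤ M := Finset.sum_nonneg fun l _ => Finset.sum_nonneg fun l' _ => by
    split_ifs
    exacts [mul_nonneg (hρ l).le (hρ l').le, le_rfl]
  have hM1 : M ≤ 1 := by
    calc M ≤ ∑ l, ∑ l', ρ l * ρ l' := Finset.sum_le_sum fun l _ => Finset.sum_le_sum fun l' _ => by
          split_ifs
          exacts [le_rfl, mul_nonneg (hρ l).le (hρ l').le]
      _ = 1 := by simp [← Finset.mul_sum, hsum]
  have ha0 : 0 ≤ a := by rw [ha]; positivity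
  have ha1 : a ≤ 1 / 32 := by rw [ha]; nlinarith
  have hk : ∀ k : ℝ, 0 ≤ k → k ≤ 16 → |Real.exp (k * a) - 1 - k * a| ≤ k ^ 2 * a ^ 2 := fun k h0 h1 => by
    rw [← mul_pow]
    exact exp_near (by rw [abs_of_nonneg (mul_nonneg h0 ha0)]; nlinarith)
  have b16 := abs_le.1 (hk 16 (by norm_num) le_rfl)
  have b9 := abs_le.1 (hk 9 (by norm_num) (by norm_num))
  have b4 := abs_le.1 (hk 4 (by norm_num) (by norm_num))
  have b2 := abs_le.1 (hk 2 (by norm_num) (by norm_num))
  have b1 := abs_le.1 (hk 1 zero_le_one (by norm_num))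
  rw [one_mul] at b1
  have has : a ^ 2 = s ^ 4 / 4 := by rw [ha]; ring
  have hq1 : (Real.exp (16 * a) - 3 * Real.exp (9 * a) + 2 * Real.exp (4 * a) + 3 * Real.exp a - 3) / s ≤
      600 * s ^ 3 := by
    rw [div_le_iff₀ hs, show 600 * s ^ 3 * s = 2400 * a ^ 2 by rw [has]; ring]
    linarith [sq_nonneg a]
  have hq2 : s * (Real.exp (4 * a) - 1) ≤ 5 * s ^ 3 := by
    rw [show 5 * s ^ 3 = s * (10 * a) by rw [ha]; ring]
    refine mul_le_mul_of_nonneg_left ?_ hs.le
    nlinarith
  have hcross : |(Real.exp (4 * a) - Real.exp (2 * a)) * M - 2 * a * M| ≤ 20 * a ^ 2 := by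
    rw [← sub_mul, abs_mul, abs_of_nonneg hM0]
    refine (mul_le_of_le_one_right (abs_nonneg _) hM1).trans ?_
    rw [abs_le]
    constructor <;> linarith
  have hs4 : a ^ 2 ≤ s ^ 3 := by rw [has]; nlinarith [pow_pos hs 3]
  have hs3 : (0 : ℝ) ≤ s ^ 3 := by positivity
  have hmain := abs_le.1 hR
  have hc := abs_le.1 hcross
  rw [abs_le]
  constructor <;> linarith

end Vale.Agent.P166F
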