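import Vale.Agent.P166F.Tree.Dev
import Vale.Agent.P166F.Tree.Mix

/-!
P166: trees with one additional coordinate carrying a linear energy.
-/

namespace Vale.Agent.P166F

open MeasureTheory ProbabilityTheory Filter Set
open Vale.Agent.P157 Vale.Agent.P166N
open scoped Topology

variable {ι : Type} [Fintype ι] {n k : ℕ}

/-- Adjoining a coordinate. -/
noncomputable def ext1 (z : EuclideanSpace ℝ ι) (y : ℝ) : EuclideanSpace ℝ (Option ι) :=
  WithLp.toLp 2 fun o => o.elim y fun i => z i

/-- Dropping the added coordinate. -/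
noncomputable def res1 (x : EuclideanSpace ℝ (Option ι)) : EuclideanSpace ℝ ι :=
  WithLp.toLp 2 fun i => x (some i)

omit [Fintype ι] in
@[simp] lemma res1_ext1 (z : EuclideanSpace ℝ ι) (y : ℝ) : res1 (ext1 z y) = z := rfl

omit [Fintype ι] in
@[simp] lemma ext1_none (z : EuclideanSpace ℝ ι) (y : ℝ) : ext1 z y none = y := rfl

lemma measurePreserving_ext1 :
    MeasurePreserving (fun p : EuclideanSpace ℝ ι × ℝ => ext1 p.1 p.2)
      ((stdGaussian (EuclideanSpace ℝ ι)).prod (gaussianReal 0 1))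
      (stdGaussian (EuclideanSpace ℝ (Option ι))) := by
  set g := gaussianReal 0 1
  have hι : MeasurePreserving (fun x : EuclideanSpace ℝ ι => fun i => x i)
      (stdGaussian (EuclideanSpace ℝ ι)) (Measure.pi fun _ : ι => g) := by
    refine ⟨by fun_prop, ?_⟩
    rw [← map_pi_eq_stdGaussian, Measure.map_map (by fun_prop) (by fun_prop)]
    exact Measure.map_id
  have ho : MeasurePreserving (WithLp.toLp 2 : (Option ι → ℝ) → EuclideanSpace ℝ (Option ι))
      (Measure.pi fun _ : Option ι => g) (stdGaussian (EuclideanSpace ℝ (Option ι))) :=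
    ⟨by fun_prop, map_pi_eq_stdGaussian⟩
  exact (ho.comp (measurePreserving_option g ι)).comp
    ((Measure.measurePreserving_swap (μ := Measure.pi fun _ : ι => g) (ν := g)).comp
      (hι.prod (MeasurePreserving.id g)))

/-- Variances with an added coordinate. -/
def extR (R : ℕ → ι → ℝ) (ξ : ℕ → ℝ) (j : ℕ) : Option ι → ℝ := fun o => o.elim (ξ j) (R j)

/-- An energy with an added linear term. -/
noncomputable def extG (G : EuclideanSpace ℝ ι → ℝ) (s : ℝ) (x : EuclideanSpace ℝ (Option ι)) : ℝ :=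
  G (res1 x) + s * x none

variable {G : EuclideanSpace ℝ ι → ℝ} {K : ℝ}

lemma norm_res1_le (x : EuclideanSpace ℝ (Option ι)) : ‖res1 x‖ ≤ ‖x‖ := by
  rw [EuclideanSpace.norm_eq, EuclideanSpace.norm_eq, Fintype.sum_option]
  exact Real.sqrt_le_sqrt (le_add_of_nonneg_left (sq_nonneg _))

lemma lip_extG (hG : RSB.Lip K G) (s : ℝ) : RSB.Lip (K + |s|) (extG G s) := by
  have hm : Measurable (res1 : EuclideanSpace ℝ (Option ι) → EuclideanSpace ℝ ι) := by
    unfold res1; fun_prop
  refine ⟨(hG.meas.comp hm).add ((by fun_prop : Measurable fun x : EuclideanSpace ℝ (Option ι) => x none).const_mul s),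
    add_nonneg hG.nonneg (abs_nonneg s), fun x y => ?_⟩
  have e : res1 (x + y) = res1 x + res1 y := rfl
  rw [extG, extG, e, PiLp.add_apply, show G (res1 x + res1 y) + s * (x none + y none) -
    (G (res1 x) + s * x none) = (G (res1 x + res1 y) - G (res1 x)) + s * y none by ring, add_mul]
  refine (abs_add_le _ _).trans (add_le_add ((hG.lip _ _).trans
    (mul_le_mul_of_nonneg_left (norm_res1_le y) hG.nonneg)) ?_)
  rw [abs_mul]
  exact mul_le_mul_of_nonneg_left ((Real.norm_eq_abs _).ge.trans (PiLp.norm_apply_le y none))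
    (abs_nonneg s)

/-- The gain of a linear coordinate. -/
def jumps : ℕ → (ℕ → ℝ) → (ℕ → ℝ) → ℝ
  | 0, _, _ => 0
  | k + 1, m, ξ => m 1 * (ξ 1 - ξ 0) + jumps k (fun j => m (j + 1)) fun j => ξ (j + 1)

theorem nestVal_extG (hG : RSB.Lip K G) (s : ℝ) : ∀ {k : ℕ} {m : ℕ → ℝ} (R : ℕ → ι → ℝ) {ξ : ℕ → ℝ},
    (∀ j, 1 ≤ j → j ≤ k → 0 < m j) → (∀ j < k, ξ j ≤ ξ (j + 1)) →
    ∀ x : EuclideanSpace ℝ (Option ι), nestVal k m (extR R ξ) (extG G s) x =
      nestVal k m R G (res1 x) + s * x none + s ^ 2 / 2 * jumps k m ξ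
  | 0, m, R, ξ, _, _, x => by simp [nestVal, jumps, extG]
  | k + 1, m, R, ξ, hm, hξ, x => by
    have hm' : ∀ j, 1 ≤ j → j ≤ k → 0 < m (j + 1) := fun j h1 h2 => hm (j + 1) (by omega) (by omega)
    have ih := nestVal_extG hG s (k := k) (m := fun j => m (j + 1)) (fun j => R (j + 1))
      (ξ := fun j => ξ (j + 1)) hm' fun j hj => hξ (j + 1) (by omega)
    set A : EuclideanSpace ℝ ι → ℝ := fun z => Real.exp (m 1 * nestVal k (fun j => m (j + 1))
      (fun j => R (j + 1)) G (res1 x + WithLp.toLp 2 fun i => Real.sqrt (R 1 i - R 0 i) * z i)) with hA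
    set J := jumps k (fun j => m (j + 1)) fun j => ξ (j + 1)
    set d := Real.sqrt (ξ 1 - ξ 0)
    set B : ℝ → ℝ := fun y => Real.exp (m 1 * s * d * y) with hB
    have hm1 : 0 < m 1 := hm 1 le_rfl (by omega)
    have hpos : 0 < ∫ z, A z ∂stdGaussian (EuclideanSpace ℝ ι) := by
      have h := (RSB.casc_wgt (γ := stdGaussian (EuclideanSpace ℝ ι)) (m := Prod.fst) (σ := shf)
        (i := (m 1, fun i => R 1 i - R 0 i))
        (RSB.good_cons.2 ⟨⟨hm1, shift_shf _⟩, good_levs (fun j => R (j + 1)) hm'⟩) hG (res1 x)).pos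
      simpa only [hA, ← nestVal_eq, shf] using h
    have hfun : ∀ (z : EuclideanSpace ℝ ι) (y : ℝ),
        Real.exp (m 1 * nestVal k (fun j => m (j + 1)) (fun j => extR R ξ (j + 1)) (extG G s)
          (x + WithLp.toLp 2 fun o => Real.sqrt (extR R ξ 1 o - extR R ξ 0 o) * ext1 z y o)) =
          A z * B y * Real.exp (m 1 * (s * x none + s ^ 2 / 2 * J)) := fun z y => by
      have h := ih (x + WithLp.toLp 2 fun o => Real.sqrt (extR R ξ 1 o - extR R ξ 0 o) * ext1 z y o)
      have e : res1 (x + WithLp.toLp 2 fun o => Real.sqrt (extR R ξ 1 o - extR R ξ 0 o) * ext1 z y o) =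
          res1 x + WithLp.toLp 2 fun i => Real.sqrt (R 1 i - R 0 i) * z i := rfl
      rw [show (fun j => extR R ξ (j + 1)) = extR (fun j => R (j + 1)) fun j => ξ (j + 1) from rfl, h, e]
      simp only [hA, hB, ← Real.exp_add, PiLp.add_apply]
      congr 1
      show m 1 * (_ + s * (x none + d * y) + _) = _
      ring
    have hmgf : ∫ y, B y ∂gaussianReal 0 1 = Real.exp ((m 1 * s) ^ 2 * (ξ 1 - ξ 0) / 2) := by
      have := congrFun (mgf_id_gaussianReal (μ := (0 : ℝ)) (v := (1 : NNReal))) (m 1 * s * d)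
      simp only [mgf, id, zero_mul, zero_add, NNReal.coe_one, one_mul] at this
      rw [hB, this, mul_pow, Real.sq_sqrt (sub_nonneg.2 (hξ 0 (by omega)))]
    set H : EuclideanSpace ℝ (Option ι) → ℝ := fun w => Real.exp (m 1 * nestVal k (fun j => m (j + 1))
      (fun j => extR R ξ (j + 1)) (extG G s)
      (x + WithLp.toLp 2 fun o => Real.sqrt (extR R ξ 1 o - extR R ξ 0 o) * w o)) with hH
    have hHm : Measurable H := by
      have h1 := (lip_extG hG s).casc (good_levs (ι := Option ι) (m := fun j => m (j + 1))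
        (fun j => extR R ξ (j + 1)) hm')
      simp only [hH, nestVal_eq]
      exact ((h1.meas.comp (by fun_prop)).const_mul _).exp
    have hint : ∫ w, H w ∂stdGaussian (EuclideanSpace ℝ (Option ι)) =
        (∫ z, A z ∂stdGaussian (EuclideanSpace ℝ ι)) *
          Real.exp ((m 1 * s) ^ 2 * (ξ 1 - ξ 0) / 2 + m 1 * (s * x none + s ^ 2 / 2 * J)) := by
      rw [← measurePreserving_ext1.map_eq, integral_map measurePreserving_ext1.measurable.aemeasurable
        hHm.aestronglyMeasurable]
      simp only [hH, hfun]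
      rw [integral_mul_const, integral_prod_mul, hmgf, mul_assoc, ← Real.exp_add]
    simp only [nestVal, jumps]
    rw [show ∫ w, Real.exp (m 1 * nestVal k (fun j => m (j + 1)) (fun j => extR R ξ (j + 1)) (extG G s)
      (x + WithLp.toLp 2 fun o => Real.sqrt (extR R ξ 1 o - extR R ξ 0 o) * w o))
        ∂stdGaussian (EuclideanSpace ℝ (Option ι)) = _ from hint,
      Real.log_mul hpos.ne' (Real.exp_pos _).ne', Real.log_exp]
    simp only [hA]
    field_simp
    ring

theorem nestRoot_extG (hG : RSB.Lip K G) (s : ℝ) {m : ℕ → ℝ} (R : ℕ → ι → ℝ) {ξ : ℕ → ℝ}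
    (hm : ∀ j, 1 ≤ j → j ≤ k → 0 < m j) (hξ : ∀ j < k, ξ j ≤ ξ (j + 1)) (h0 : ξ 0 = 0) :
    nestRoot k m (extR R ξ) (extG G s) = nestRoot k m R G + s ^ 2 / 2 * jumps k m ξ := by
  set f : EuclideanSpace ℝ ι → ℝ := fun z =>
    nestVal k m R G (WithLp.toLp 2 fun i => Real.sqrt (R 0 i) * z i)
  have hf : Measurable f := by
    simp only [f, nestVal_eq]
    exact (hG.casc (good_levs R hm)).meas.comp (by fun_prop)
  have hfi : Integrable f (stdGaussian (EuclideanSpace ℝ ι)) := by
    set x := fun z : EuclideanSpace ℝ ι =>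
      (WithLp.toLp 2 fun i => Real.sqrt (R 0 i) * z i : EuclideanSpace ℝ ι)
    have hsh := shift_shf (0, R 0)
    have hi : Integrable (fun z => |nestVal k m R G 0| + K * Real.exp (1 * ‖shf (0, R 0) z‖))
        (stdGaussian (EuclideanSpace ℝ ι)) := (integrable_const _).add ((hsh.int 1).const_mul K)
    refine hi.mono' hf.aestronglyMeasurable (Eventually.of_forall fun z => ?_)
    have h := (hG.casc (good_levs R hm)).lip 0 (shf (0, R 0) z)
    rw [zero_add, ← nestVal_eq, ← nestVal_eq] at h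
    have := Real.add_one_le_exp (1 * ‖shf (0, R 0) z‖)
    rw [Real.norm_eq_abs]
    have h2 := abs_sub_abs_le_abs_sub (f z) (nestVal k m R G 0)
    have h3 : K * ‖shf (0, R 0) z‖ ≤ K * Real.exp (1 * ‖shf (0, R 0) z‖) :=
      mul_le_mul_of_nonneg_left (by linarith) hG.nonneg
    change |f z - nestVal k m R G 0| ≤ _ at h
    linarith
  have e : ∀ w : EuclideanSpace ℝ (Option ι), nestVal k m (extR R ξ) (extG G s)
      (WithLp.toLp 2 fun o => Real.sqrt (extR R ξ 0 o) * w o) = f (res1 w) + s ^ 2 / 2 * jumps k m ξ :=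
    fun w => by
      rw [nestVal_extG hG s R hm hξ]
      show f (res1 w) + s * (Real.sqrt (ξ 0) * w none) + _ = _
      simp [h0]
  have hres : Measurable (res1 : EuclideanSpace ℝ (Option ι) → EuclideanSpace ℝ ι) := by
    unfold res1; fun_prop
  simp only [nestRoot, e]
  have hg : Measurable fun w : EuclideanSpace ℝ (Option ι) => f (res1 w) + s ^ 2 / 2 * jumps k m ξ :=
    (hf.comp hres).add_const _
  rw [← measurePreserving_ext1.map_eq, integral_map measurePreserving_ext1.measurable.aemeasurable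
    hg.aestronglyMeasurable]
  simp only [res1_ext1]
  rw [integral_add (hfi.comp_fst _) (integrable_const _), integral_fun_fst]
  simp [f]

lemma jumps_const : ∀ {k : ℕ} {m : ℕ → ℝ} {ξ : ℕ → ℝ},
    (∀ j < k, ξ (j + 1) = ξ j) → jumps k m ξ = 0
  | 0, _, _, _ => rfl
  | k + 1, m, ξ, h => by
    rw [jumps, h 0 (by omega), sub_self, mul_zero, zero_add,
      jumps_const (k := k) fun j hj => h (j + 1) (by omega)]

/-- The variances of a coordinate which switches on at level `j`. -/
def indAt (j i : ℕ) : ℝ := if j ≤ i then 1 else 0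

lemma jumps_indAt : ∀ {k : ℕ} {m : ℕ → ℝ} {j : ℕ}, 1 ≤ j → j ≤ k → jumps k m (indAt j) = m j
  | 0, _, _, h1, h2 => by omega
  | k + 1, m, 1, _, _ => by
    rw [jumps, jumps_const fun i _ => by simp [indAt]]
    simp [indAt]
  | k + 1, m, j + 2, _, h2 => by
    rw [jumps, show (fun i => indAt (j + 2) (i + 1)) = indAt (j + 1) by
      funext i; simp [indAt], jumps_indAt (k := k) (by omega) (by omega)]
    simp [indAt]

/-- The marks of the extended tree. -/
lemma measurePreserving_extMarks (n k : ℕ) :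
    MeasurePreserving (fun p : ((Node n k → ℝ) × (Option (Node n k) → EuclideanSpace ℝ ι)) ×
        (Option (Node n k) → ℝ) => (p.1.1, fun ν => ext1 (p.1.2 ν) (p.2 ν)))
      ((markLaw n k ι).prod (gLaw (Option (Node n k)))) (markLaw n k (Option ι)) := by
  set γ := stdGaussian (EuclideanSpace ℝ ι)
  set g := gaussianReal 0 1
  have h1 := (measurePreserving_pi (fun _ : Option (Node n k) => γ.prod g)
    (fun _ => stdGaussian (EuclideanSpace ℝ (Option ι)))
    fun _ => measurePreserving_ext1 (ι := ι)).comp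
      ((measurePreserving_arrowProdEquivProdArrow (EuclideanSpace ℝ ι) ℝ (Option (Node n k))
        (fun _ => γ) (fun _ => g)).symm (MeasurableEquiv.arrowProdEquivProdArrow _ _ _))
  exact ((MeasurePreserving.id (Measure.pi fun _ : Node n k => unif)).prod h1).comp
    (measurePreserving_prodAssoc _ _ _)

end Vale.Agent.P166F
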