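import Vale.Agent.P166F.Tree.Defs

/-!
P166: the Laplace transform of the weighted leaf sum of an anisotropic tree, and expected logarithms.
-/

namespace Vale.Agent.P166F

open MeasureTheory ProbabilityTheory Filter Set
open Vale.Agent.P157 Vale.Agent.P166N
open scoped Topology

/-! ### Logarithms from Laplace transforms -/

section laplace

variable {W : Type} [MeasurableSpace W] {P : Measure W} [IsProbabilityMeasure P] {T : W → ℝ}

/-- The expected logarithm of a positive variable with controlled Laplace transform. -/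
theorem log_of_laplace (hTm : Measurable T) (hT0 : ∀ᵐ w ∂P, 0 < T w) {p A : ℝ} (hp : 0 < p)
    (hp1 : p ≤ 1) (hb : ∀ t, 0 < t → 1 - ∫ w, Real.exp (-(t * T w)) ∂P ≤ A * t ^ p ∧
      ∫ w, Real.exp (-(t * T w)) ∂P ≤ A * t ^ (-p)) :
    Integrable (fun w => Real.log (T w)) P ∧
      ∫ w, Real.log (T w) ∂P =
        ∫ t in Ioi 0, (Real.exp (-t) - ∫ w, Real.exp (-(t * T w)) ∂P) / t := by
  set F : W × ℝ → ℝ := fun q => (Real.exp (-q.2) - Real.exp (-(q.2 * T q.1))) / q.2 with hF
  have hFm : Measurable F := (measurable_snd.neg.exp.sub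
    ((measurable_snd.mul (hTm.comp measurable_fst)).neg).exp).div measurable_snd
  have hei : ∀ t, 0 ≤ t → Integrable (fun w => Real.exp (-(t * T w))) P := fun t ht =>
    Integrable.of_bound ((hTm.const_mul t).neg.exp).aestronglyMeasurable 1 (hT0.mono fun w hw => by
      rw [Real.norm_eq_abs, Real.abs_exp, Real.exp_le_one_iff, neg_nonpos]
      exact mul_nonneg ht hw.le)
  have hsec : ∀ t, 0 < t → Integrable (fun w => F (w, t)) P := fun t ht =>
    ((integrable_const (Real.exp (-t))).sub (hei t ht.le)).div_const t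
  have hFi : Integrable F (P.prod (volume.restrict (Ioi 0))) := by
    refine (integrable_prod_iff' hFm.aestronglyMeasurable).2
      ⟨(ae_restrict_mem measurableSet_Ioi).mono fun t ht => hsec t ht, ?_⟩
    refine (integrableOn_logDom hp A).mono'
      (hFm.norm.stronglyMeasurable.integral_prod_left').aestronglyMeasurable
      ((ae_restrict_mem measurableSet_Ioi).mono fun t ht => ?_)
    have ht : (0 : ℝ) < t := ht
    obtain ⟨h1, h2⟩ := hb t ht
    rw [Real.norm_eq_abs, abs_of_nonneg (integral_nonneg fun w => norm_nonneg _)]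
    unfold logDom
    split_ifs with h
    · refine (integral_mono_ae (hsec t ht).norm
        (((integrable_const t).add ((integrable_const 1).sub (hei t ht.le))).div_const t)
        (hT0.mono fun w hw => ?_)).trans ?_
      · simp only [Pi.add_apply, Pi.sub_apply]
        rw [hF, Real.norm_eq_abs, abs_div, abs_of_pos ht]
        refine div_le_div_of_nonneg_right (abs_le.2 ?_) ht.le
        have := Real.exp_le_one_iff.2 (neg_nonpos.2 (mul_nonneg ht.le hw.le))
        have := Real.exp_le_one_iff.2 (neg_nonpos.2 ht.le)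
        constructor <;> linarith [Real.one_sub_le_exp_neg t]
      · rw [integral_div]
        simp only [Pi.add_apply, Pi.sub_apply]
        have hh : Integrable (fun w => 1 - Real.exp (-(t * T w))) P :=
          (integrable_const 1).sub (hei t ht.le)
        rw [integral_add (integrable_const t) hh, integral_sub (integrable_const 1) (hei t ht.le)]
        simp only [integral_const, probReal_univ, one_smul]
        rw [div_le_iff₀ ht, add_mul, mul_assoc, ← Real.rpow_add_one ht.ne', sub_add_cancel]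
        linarith
    · refine (integral_mono_ae (hsec t ht).norm
        (((integrable_const (Real.exp (-t))).add (hei t ht.le)).div_const t)
        (hT0.mono fun w hw => ?_)).trans ?_
      · simp only [Pi.add_apply]
        rw [hF, Real.norm_eq_abs, abs_div, abs_of_pos ht]
        refine div_le_div_of_nonneg_right (abs_le.2 ?_) ht.le
        constructor <;> linarith [Real.exp_pos (-t), Real.exp_pos (-(t * T w))]
      · rw [integral_div]
        simp only [Pi.add_apply]
        rw [integral_add (integrable_const _) (hei t ht.le)]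
        simp only [integral_const, probReal_univ, one_smul]
        rw [div_le_iff₀ ht, mul_assoc, ← Real.rpow_add_one ht.ne', sub_add_cancel]
        have hti : Real.exp (-t) ≤ t ^ (-p) := by
          refine le_trans ?_ (Real.rpow_le_rpow_of_exponent_le (not_le.1 h).le (neg_le_neg hp1))
          rw [Real.rpow_neg_one, Real.exp_neg]
          exact inv_anti₀ ht (by linarith [Real.add_one_le_exp t])
        linarith [add_mul (1 : ℝ) A (t ^ (-p))]
  have hlog : (fun w => ∫ t in Ioi 0, F (w, t)) =ᵐ[P] fun w => Real.log (T w) :=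
    hT0.mono fun w hw => by
      dsimp only
      rw [← (integral_frullani hw).2]
      simp only [hF, mul_comm (T w)]
  refine ⟨hFi.integral_prod_left.congr hlog, ?_⟩
  rw [← integral_congr_ae hlog, ← integral_prod _ hFi, integral_prod_symm _ hFi]
  refine setIntegral_congr_fun measurableSet_Ioi fun t ht => ?_
  simp only [hF]
  rw [integral_div, integral_sub (integrable_const _) (hei t (le_of_lt ht))]
  simp

/-- The same for `log (1 + c T)`. -/
theorem log_add_of_laplace (hTm : Measurable T) (hT0 : ∀ᵐ w ∂P, 0 < T w) {p A : ℝ} (hA : 0 ≤ A)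
    (hp : 0 < p) (hp1 : p ≤ 1) (hb : ∀ t, 0 < t → 1 - ∫ w, Real.exp (-(t * T w)) ∂P ≤ A * t ^ p ∧
      ∫ w, Real.exp (-(t * T w)) ∂P ≤ A * t ^ (-p)) {c : ℝ} (hc : 0 < c) :
    Integrable (fun w => Real.log (1 + c * T w)) P ∧
      ∫ w, Real.log (1 + c * T w) ∂P =
        ∫ t in Ioi 0, Real.exp (-t) * (1 - ∫ w, Real.exp (-(c * t * T w)) ∂P) / t := by
  have e : ∀ t, ∫ w, Real.exp (-(t * (1 + c * T w))) ∂P =
      Real.exp (-t) * ∫ w, Real.exp (-(c * t * T w)) ∂P := fun t => by
    rw [← integral_const_mul]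
    refine integral_congr_ae (Eventually.of_forall fun w => ?_)
    dsimp only
    rw [← Real.exp_add]
    ring_nf
  have hm : Measurable fun w => 1 + c * T w := (hTm.const_mul c).const_add 1
  have h0 : ∀ᵐ w ∂P, 0 < 1 + c * T w := hT0.mono fun w hw => by positivity
  have key := log_of_laplace (P := P) hm h0 hp hp1 (A := 1 + A * (c ^ p + c ^ (-p))) fun t ht => by
    obtain ⟨h1, h2⟩ := hb (c * t) (by positivity)
    rw [Real.mul_rpow hc.le ht.le] at h1 h2
    rw [e t]
    set L := ∫ w, Real.exp (-(c * t * T w)) ∂P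
    have hL0 : 0 ≤ L := integral_nonneg fun w => (Real.exp_pos _).le
    have hE1 := Real.exp_le_one_iff.2 (neg_nonpos.2 ht.le)
    have hcp : 0 ≤ c ^ p := (Real.rpow_pos_of_pos hc p).le
    have hcn : 0 ≤ c ^ (-p) := (Real.rpow_pos_of_pos hc (-p)).le
    have htp : 0 ≤ t ^ p := (Real.rpow_pos_of_pos ht p).le
    have htn : 0 ≤ t ^ (-p) := (Real.rpow_pos_of_pos ht (-p)).le
    constructor
    · rcases le_total 1 t with h | h
      · nlinarith [Real.one_le_rpow h hp.le, mul_nonneg (mul_nonneg hA (add_nonneg hcp hcn)) htp,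
          mul_nonneg (Real.exp_pos (-t)).le hL0]
      · nlinarith [Real.self_le_rpow_of_le_one ht.le h hp1, Real.one_sub_le_exp_neg t,
          mul_le_mul_of_nonneg_left h1 (Real.exp_pos (-t)).le,
          mul_nonneg (mul_nonneg hA hcn) htp, mul_nonneg (mul_nonneg hA hcp) htp]
    · nlinarith [mul_le_of_le_one_left hL0 hE1, mul_nonneg (mul_nonneg hA hcp) htn]
  refine ⟨key.1, key.2.trans (setIntegral_congr_fun measurableSet_Ioi fun t _ => ?_)⟩
  rw [e t]
  ring

end laplace

/-! ### Trees -/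

variable {ι : Type} [Fintype ι] {n : ℕ}

/-- The field at a leaf without the root. -/
noncomputable def pt (k : ℕ) (R : ℕ → ι → ℝ) (l : Leaf n k) (z : Node n k → EuclideanSpace ℝ ι) :
    EuclideanSpace ℝ ι :=
  WithLp.toLp 2 fun i => ∑ ν, feat k (fun j => R j i) l ν * z ν i

/-- The root part of the field. -/
noncomputable def rootPt (R : ℕ → ι → ℝ) (h : EuclideanSpace ℝ ι) : EuclideanSpace ℝ ι :=
  WithLp.toLp 2 fun i => Real.sqrt (R 0 i) * h i

/-- The weighted leaf sum. -/
noncomputable def tsum' (k : ℕ) (m : ℕ → ℝ) (R : ℕ → ι → ℝ) (G : EuclideanSpace ℝ ι → ℝ)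
    (x : EuclideanSpace ℝ ι) (v : Node n k → ℝ) (z : Node n k → EuclideanSpace ℝ ι) : ℝ :=
  ∑ l, wgt n k m v l * Real.exp (G (x + pt k R l z))

/-- The levels as a list. -/
def levs : ℕ → (ℕ → ℝ) → (ℕ → ι → ℝ) → List (ℝ × (ι → ℝ))
  | 0, _, _ => []
  | k + 1, m, R => (m 1, fun i => R 1 i - R 0 i) :: levs k (fun j => m (j + 1)) fun j => R (j + 1)

/-- The shift of a level. -/
noncomputable def shf (d : ℝ × (ι → ℝ)) (z : EuclideanSpace ℝ ι) : EuclideanSpace ℝ ι :=
  WithLp.toLp 2 fun i => Real.sqrt (d.2 i) * z i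

/-- The exponents as a list. -/
def mlist : ℕ → (ℕ → ℝ) → List ℝ
  | 0, _ => []
  | k + 1, m => m 1 :: mlist k fun j => m (j + 1)

lemma map_levs : ∀ (k : ℕ) (m : ℕ → ℝ) (R : ℕ → ι → ℝ), (levs k m R).map Prod.fst = mlist k m
  | 0, _, _ => rfl
  | k + 1, m, R => by simp [levs, mlist, map_levs k]

lemma leafPt_eq (k : ℕ) (R : ℕ → ι → ℝ) (l : Leaf n k)
    (z : Option (Node n k) → EuclideanSpace ℝ ι) :
    leafPt k R l z = rootPt R (z none) + pt k R l fun ν => z (some ν) := by
  ext i
  simp [leafPt, rootPt, pt, Fintype.sum_option, feat0]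

lemma nestVal_eq (G : EuclideanSpace ℝ ι → ℝ) : ∀ (k : ℕ) (m : ℕ → ℝ) (R : ℕ → ι → ℝ) (x),
    nestVal k m R G x =
      RSB.casc (stdGaussian (EuclideanSpace ℝ ι)) Prod.fst shf (levs k m R) G x
  | 0, _, _, _ => rfl
  | k + 1, m, R, x => by simp only [nestVal, levs, RSB.casc, RSB.lexp, shf, nestVal_eq G k]

lemma measurable_wgt : ∀ (k : ℕ) (m : ℕ → ℝ) (l : Leaf n k),
    Measurable fun v : Node n k → ℝ => wgt n k m v l
  | 0, _, _ => measurable_const
  | k + 1, m, (a, l) => (((measurable_pi_apply _).const_mul _).pow_const _).mul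
      ((measurable_wgt k _ l).comp (measurable_pi_lambda _ fun u => measurable_pi_apply _))

lemma wgt_pos (hn : 1 ≤ n) : ∀ {k : ℕ} {m : ℕ → ℝ} {v : Node n k → ℝ},
    (∀ u, 0 < v u) → ∀ l, 0 < wgt n k m v l
  | 0, _, _, _, _ => one_pos
  | k + 1, m, v, hv, (a, l) =>
    mul_pos (Real.rpow_pos_of_pos (mul_pos (by exact_mod_cast hn) (hv _)) _)
      (wgt_pos hn (fun u => hv _) l)

lemma measurable_pt (k : ℕ) (R : ℕ → ι → ℝ) (l : Leaf n k) :
    Measurable fun z : Node n k → EuclideanSpace ℝ ι => pt k R l z := by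
  simp only [pt]
  fun_prop

variable {G : EuclideanSpace ℝ ι → ℝ} {K : ℝ}

lemma measurable_tsum' (hG : Measurable G) (k : ℕ) (m : ℕ → ℝ) (R : ℕ → ι → ℝ) :
    Measurable fun p : EuclideanSpace ℝ ι × (Node n k → ℝ) × (Node n k → EuclideanSpace ℝ ι) =>
      tsum' k m R G p.1 p.2.1 p.2.2 :=
  Finset.measurable_fun_sum _ fun l _ =>
    ((measurable_wgt k m l).comp (measurable_fst.comp measurable_snd)).mul
      ((hG.comp (measurable_fst.add ((measurable_pt k R l).comp
        (measurable_snd.comp measurable_snd)))).exp)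

lemma tsum'_pos (hn : 1 ≤ n) {k : ℕ} (m : ℕ → ℝ) (R : ℕ → ι → ℝ) (x : EuclideanSpace ℝ ι)
    {v : Node n k → ℝ} (hv : ∀ u, 0 < v u) (z : Node n k → EuclideanSpace ℝ ι) :
    0 < tsum' k m R G x v z := by
  have := nonempty_leaf hn k
  exact Finset.sum_pos (fun l _ => mul_pos (wgt_pos hn hv l) (Real.exp_pos _)) Finset.univ_nonempty

lemma pt_succ {k : ℕ} (R : ℕ → ι → ℝ) (a : Fin n) (l : Leaf n k)
    (z : Node n (k + 1) → EuclideanSpace ℝ ι) :
    pt (k + 1) R (a, l) z = shf (0, fun i => R 1 i - R 0 i) (z (a, none)) +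
      pt k (fun j => R (j + 1)) l fun u => z (a, some u) := by
  ext i
  simp only [pt, shf, PiLp.add_apply]
  show ∑ p : Fin n × Option (Node n k), feat (k + 1) (fun j => R j i) (a, l) p * z p i = _
  rw [Fintype.sum_prod_type, Finset.sum_eq_single a]
  · rw [Fintype.sum_option]
    simp [feat]
  · intro b _ hb
    rw [Fintype.sum_option]
    simp [feat, hb.symm]
  · simp

lemma tsum'_succ (k : ℕ) (m : ℕ → ℝ) (R : ℕ → ι → ℝ) (x : EuclideanSpace ℝ ι)
    (v : Node n (k + 1) → ℝ) (z : Node n (k + 1) → EuclideanSpace ℝ ι) :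
    tsum' (k + 1) m R G x v z = ∑ a : Fin n, ((n : ℝ) * v (a, none)) ^ (-(1 / m 1)) *
      tsum' k (fun j => m (j + 1)) (fun j => R (j + 1)) G
        (x + shf (m 1, fun i => R 1 i - R 0 i) (z (a, none)))
        (fun u => v (a, some u)) fun u => z (a, some u) := by
  show ∑ p : Fin n × Leaf n k, wgt n (k + 1) m v p * Real.exp (G (x + pt (k + 1) R p z)) = _
  rw [Fintype.sum_prod_type]
  refine Finset.sum_congr rfl fun a _ => ?_
  simp only [tsum', Finset.mul_sum]
  refine Finset.sum_congr rfl fun l _ => ?_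
  rw [pt_succ, add_assoc, ← mul_assoc]
  rfl

/-- The law of one node. -/
noncomputable def nodeMark (ι : Type) [Fintype ι] : Measure (ℝ × EuclideanSpace ℝ ι) :=
  unif.prod (stdGaussian (EuclideanSpace ℝ ι))

instance : IsProbabilityMeasure (nodeMark ι) := by unfold nodeMark; infer_instance

lemma ae_mark_pos {k : ℕ} : ∀ᵐ w ∂Measure.pi (fun _ : Node n k => nodeMark ι), ∀ u, 0 < (w u).1 :=
  ae_all_iff.2 fun u =>
    ((measurePreserving_eval (fun _ : Node n k => nodeMark ι) u).quasiMeasurePreserving.ae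
      ((measurePreserving_fst (μ := unif) (ν := stdGaussian (EuclideanSpace ℝ ι))).quasiMeasurePreserving.ae
        (ae_unif.mono fun v hv => hv.1)))

lemma shift_shf (d : ℝ × (ι → ℝ)) : RSB.Shift (stdGaussian (EuclideanSpace ℝ ι)) (shf d) := by
  have hm : Measurable (shf d) := by unfold shf; fun_prop
  refine ⟨hm, fun c => ?_⟩
  refine Integrable.mono' (RSB.shift_smul (∑ i, Real.sqrt (d.2 i)) |>.int |c|)
    ((hm.norm.const_mul c).exp).aestronglyMeasurable (Eventually.of_forall fun z => ?_)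
  have h0 : 0 ≤ ∑ i, Real.sqrt (d.2 i) := Finset.sum_nonneg fun i _ => Real.sqrt_nonneg _
  rw [Real.norm_eq_abs, Real.abs_exp, Real.exp_le_exp]
  refine (mul_le_mul_of_nonneg_right (le_abs_self c) (norm_nonneg _)).trans
    (mul_le_mul_of_nonneg_left ?_ (abs_nonneg c))
  rw [norm_smul, Real.norm_eq_abs, abs_of_nonneg h0, EuclideanSpace.norm_eq, EuclideanSpace.norm_eq,
    ← Real.sqrt_sq h0, ← Real.sqrt_mul (sq_nonneg _), Finset.mul_sum]
  refine Real.sqrt_le_sqrt (Finset.sum_le_sum fun i _ => ?_)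
  simp only [shf, Real.norm_eq_abs, sq_abs, mul_pow]
  exact mul_le_mul_of_nonneg_right (pow_le_pow_left₀ (Real.sqrt_nonneg _)
    (Finset.single_le_sum (fun j _ => Real.sqrt_nonneg (d.2 j)) (Finset.mem_univ i)) 2) (sq_nonneg _)

lemma good_levs : ∀ {k : ℕ} {m : ℕ → ℝ} (R : ℕ → ι → ℝ), (∀ j, 1 ≤ j → j ≤ k → 0 < m j) →
    RSB.Good (stdGaussian (EuclideanSpace ℝ ι)) Prod.fst shf (levs k m R)
  | 0, _, _, _ => by simp [levs, RSB.Good]
  | k + 1, m, R, h => RSB.good_cons.2 ⟨⟨h 1 le_rfl (by omega), shift_shf _⟩,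
      good_levs _ fun j h1 h2 => h (j + 1) (by omega) (by omega)⟩

lemma incr_levs : ∀ {k : ℕ} {m : ℕ → ℝ} (R : ℕ → ι → ℝ),
    (∀ j, 1 ≤ j → j ≤ k → 0 < m j ∧ m j < 1) → (∀ j, 1 ≤ j → j < k → m j < m (j + 1)) →
    Incr Prod.fst (levs k m R)
  | 0, _, _, _, _ => trivial
  | 1, m, R, h, _ => ⟨(h 1 le_rfl le_rfl).1, (h 1 le_rfl le_rfl).2, trivial⟩
  | k + 2, m, R, h, hs => ⟨(h 1 le_rfl (by omega)).1, hs 1 le_rfl (by omega),
      incr_levs _ (fun j h1 h2 => h (j + 1) (by omega) (by omega))
        fun j h1 h2 => hs (j + 1) (by omega) (by omega)⟩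

/-- The Laplace transform of the leaf sum. -/
theorem integral_exp_tsum' (hG : Measurable G) (hn : 1 ≤ n) : ∀ (k : ℕ) (m : ℕ → ℝ) (R : ℕ → ι → ℝ)
    (x : EuclideanSpace ℝ ι) {t : ℝ}, 0 ≤ t →
    ∫ w, Real.exp (-(t * tsum' k m R G x (fun u => (w u).1) fun u => (w u).2))
      ∂Measure.pi (fun _ : Node n k => nodeMark ι) =
    lap (stdGaussian (EuclideanSpace ℝ ι)) Prod.fst shf n (levs k m R) G x t
  | 0, m, R, x, t, _ => by
    have e : ∀ w : Node n 0 → ℝ × EuclideanSpace ℝ ι,
        tsum' 0 m R G x (fun u => (w u).1) (fun u => (w u).2) = Real.exp (G x) := fun w => by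
      have h0 : pt 0 R (() : Leaf n 0) (fun u => (w u).2) = 0 := by
        ext i
        show ∑ ν : Node n 0, feat 0 (fun j => R j i) (() : Leaf n 0) ν * (w ν).2 i = 0
        exact Finset.sum_eq_zero fun ν _ => ν.elim
      show ∑ _l : Unit, (1 : ℝ) * Real.exp (G (x + pt 0 R (() : Leaf n 0) _)) = _
      simp [h0]
    simp only [e, levs, lap]
    rw [integral_const, probReal_univ, one_smul]
  | k + 1, m, R, x, t, ht => by
    set μ := nodeMark ι with hμ
    have hmp := measurePreserving_node μ n k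
    set d : ℝ × (ι → ℝ) := (m 1, fun i => R 1 i - R 0 i) with hd
    set T : (ℝ × EuclideanSpace ℝ ι) × (Node n k → ℝ × EuclideanSpace ℝ ι) → ℝ :=
      fun p => Real.exp (-(t * ((n : ℝ) * p.1.1) ^ (-(1 / m 1)) * tsum' k (fun j => m (j + 1))
        (fun j => R (j + 1)) G (x + shf d p.1.2) (fun u => (p.2 u).1) fun u => (p.2 u).2)) with hT
    have hTm : Measurable T := by
      have hs := (shift_shf d).meas
      have h1 : Measurable fun p : (ℝ × EuclideanSpace ℝ ι) ×
          (Node n k → ℝ × EuclideanSpace ℝ ι) => tsum' k (fun j => m (j + 1)) (fun j => R (j + 1)) G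
          (x + shf d p.1.2) (fun u => (p.2 u).1) fun u => (p.2 u).2 :=
        (measurable_tsum' hG k _ _).comp ((by fun_prop : Measurable fun p : (ℝ × EuclideanSpace ℝ ι) ×
          (Node n k → ℝ × EuclideanSpace ℝ ι) => x + shf d p.1.2).prodMk
          ((by fun_prop : Measurable fun p : (ℝ × EuclideanSpace ℝ ι) ×
            (Node n k → ℝ × EuclideanSpace ℝ ι) => fun u => (p.2 u).1).prodMk (by fun_prop)))
      exact ((Measurable.mul (by fun_prop) h1).neg).exp
    have hint : ∫ p, T p ∂μ.prod (Measure.pi fun _ : Node n k => μ) =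
        ∫ v, ∫ z, lap (stdGaussian _) Prod.fst shf n
          (levs k (fun j => m (j + 1)) fun j => R (j + 1)) G
          (x + shf d z) (t * ((n : ℝ) * v) ^ (-(1 / m 1))) ∂stdGaussian _ ∂unif := by
      have hTi : Integrable T (μ.prod (Measure.pi fun _ : Node n k => μ)) :=
        Integrable.of_bound hTm.aestronglyMeasurable 1 (by
          filter_upwards [Measure.quasiMeasurePreserving_fst.ae
            ((measurePreserving_fst (μ := unif) (ν := stdGaussian _)).quasiMeasurePreserving.ae
              (ae_unif.mono fun v hv => hv.1)),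
            Measure.quasiMeasurePreserving_snd.ae ae_mark_pos] with p hp1 hp2
          rw [Real.norm_eq_abs, Real.abs_exp, Real.exp_le_one_iff, neg_nonpos]
          exact mul_nonneg (mul_nonneg ht (Real.rpow_nonneg
            (mul_nonneg (Nat.cast_nonneg n) (le_of_lt hp1)) _)) (tsum'_pos hn _ _ _ hp2 _).le)
      rw [integral_prod _ hTi]
      have hin := hTi.integral_prod_left
      rw [hμ, nodeMark] at hin ⊢
      rw [integral_prod _ hin]
      refine integral_congr_ae (ae_unif.mono fun v hv => integral_congr_ae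
        (Eventually.of_forall fun z => ?_))
      have h2 := integral_exp_tsum' hG hn k (fun j => m (j + 1)) (fun j => R (j + 1)) (x + shf d z)
        (t := t * ((n : ℝ) * v) ^ (-(1 / m 1)))
        (mul_nonneg ht (Real.rpow_nonneg (mul_nonneg (Nat.cast_nonneg n) hv.1.le) _))
      simp only [hT] at h2 ⊢
      rw [← h2]
      rfl
    have hF : Measurable fun w : Node n (k + 1) → ℝ × EuclideanSpace ℝ ι =>
        Real.exp (-(t * tsum' (k + 1) m R G x (fun u => (w u).1) fun u => (w u).2)) :=
      ((((measurable_tsum' hG (k + 1) m R).comp (measurable_const.prodMk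
        ((measurable_pi_lambda _ fun u => (measurable_pi_apply u).fst).prodMk
          (measurable_pi_lambda _ fun u => (measurable_pi_apply u).snd)))).const_mul t).neg).exp
    show ∫ w, _ ∂Measure.pi (fun _ : Node n (k + 1) => μ) = _
    rw [← hmp.map_eq, integral_map hmp.measurable.aemeasurable hF.aestronglyMeasurable]
    have e : ∀ w : Fin n → (ℝ × EuclideanSpace ℝ ι) × (Node n k → ℝ × EuclideanSpace ℝ ι),
        Real.exp (-(t * tsum' (k + 1) m R G x
          (fun u => ((u.2).elim (w u.1).1 (w u.1).2).1) fun u => ((u.2).elim (w u.1).1 (w u.1).2).2)) =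
        ∏ a, T (w a) := fun w => by
      simp only [hT, hd, tsum'_succ, Finset.mul_sum, ← Finset.sum_neg_distrib, Real.exp_sum,
        Option.elim, mul_assoc]
    simp only [e]
    rw [integral_fintype_prod_eq_prod (fun _ : Fin n => T), Finset.prod_const, Finset.card_univ,
      Fintype.card_fin, hint]
    simp only [levs, lap, hd]

end Vale.Agent.P166F
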