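import Vale.Agent.P166F.Tree.Ext

/-!
P166: integration over the root of a tree.
-/

namespace Vale.Agent.P166F

open MeasureTheory ProbabilityTheory Filter Set
open Vale.Agent.P157 Vale.Agent.P166N
open scoped Topology

variable {ι : Type} [Fintype ι] {n k : ℕ} {m : ℕ → ℝ} {R : ℕ → ι → ℝ} {G : EuclideanSpace ℝ ι → ℝ}
  {L : ℝ}

lemma measurable_wgt_fst (l : Leaf n k) :
    Measurable fun w : (Node n k → ℝ) × (Option (Node n k) → EuclideanSpace ℝ ι) =>
      wgt n k m w.1 l :=
  (measurable_wgt k m l).comp measurable_fst

lemma measurable_leafExp (hG : Measurable G) (l : Leaf n k) :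
    Measurable fun w : (Node n k → ℝ) × (Option (Node n k) → EuclideanSpace ℝ ι) =>
      wgt n k m w.1 l * Real.exp (G (leafPt k R l w.2)) := by
  have h : Measurable fun z : Option (Node n k) → EuclideanSpace ℝ ι => leafPt k R l z := by
    unfold leafPt; fun_prop
  exact (measurable_wgt_fst l).mul (hG.comp (h.comp measurable_snd)).exp

lemma measurable_treeLog (hG : Measurable G) :
    Measurable (treeLog (n := n) k m R G) :=
  ((Finset.measurable_fun_sum _ fun l _ => measurable_leafExp hG l).div
    (Finset.measurable_fun_sum _ fun l _ => measurable_wgt_fst l)).log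

lemma measurable_rootPt (R : ℕ → ι → ℝ) : Measurable (rootPt R) := by
  unfold rootPt; fun_prop

lemma measurable_nestVal (hm : ∀ j, 1 ≤ j → j ≤ k → 0 < m j) (hG : RSB.Lip L G) :
    Measurable (nestVal k m R G) := by
  have h := (hG.casc (good_levs (ι := ι) R hm)).meas
  rwa [show nestVal k m R G = RSB.casc (stdGaussian (EuclideanSpace ℝ ι)) Prod.fst shf (levs k m R) G from
    funext fun x => nestVal_eq G k m R x]

lemma integrable_norm_rootPt (R : ℕ → ι → ℝ) :
    Integrable (fun h => ‖rootPt R h‖) (stdGaussian (EuclideanSpace ℝ ι)) := by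
  refine ((shift_shf (0, R 0)).int 1).mono' (measurable_rootPt R).norm.aestronglyMeasurable
    (Eventually.of_forall fun z => ?_)
  rw [Real.norm_eq_abs, abs_of_nonneg (norm_nonneg _), one_mul]
  exact (le_add_of_nonneg_right zero_le_one).trans (Real.add_one_le_exp _)

variable (hm : ∀ j, 1 ≤ j → j ≤ k → 0 < m j ∧ m j < 1) (hs : ∀ j, 1 ≤ j → j < k → m j < m (j + 1))
include hm hs

lemma integrable_lrho_root (hG : RSB.Lip L G) (hn : 1 ≤ n) :
    Integrable (fun p : EuclideanSpace ℝ ι × (Node n k → ℝ × EuclideanSpace ℝ ι) =>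
        lrho k m R G (rootPt R p.1) p.2)
      ((stdGaussian _).prod (Measure.pi fun _ : Node n k => nodeMark ι)) := by
  have hmv : Measurable fun p : EuclideanSpace ℝ ι × (Node n k → ℝ × EuclideanSpace ℝ ι) =>
      lrho k m R G (rootPt R p.1) p.2 := by
    have hp : Measurable fun p : EuclideanSpace ℝ ι × (Node n k → ℝ × EuclideanSpace ℝ ι) =>
        (rootPt R p.1, ((fun u => (p.2 u).1), fun u => (p.2 u).2)) := by
      have := measurable_rootPt R
      fun_prop
    exact ((measurable_tsum' hG.meas k m R).comp hp).log.sub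
      ((measurable_tsum' measurable_const k m R).comp hp).log
  refine (((integrable_lrho hm hs (R := R) hG hn 0).abs.comp_snd _).add
    (((integrable_norm_rootPt R).const_mul L).comp_fst _)).mono' hmv.aestronglyMeasurable
    ((Measure.quasiMeasurePreserving_snd.ae ae_mark_pos).mono fun p hp => ?_)
  have h := abs_lrho_sub_le (m := m) (R := R) hG hn 0 (rootPt R p.1) hp
  rw [zero_add] at h
  rw [Real.norm_eq_abs]
  simp only [Pi.add_apply]
  linarith [abs_sub_abs_le_abs_sub (lrho k m R G (rootPt R p.1) p.2) (lrho k m R G 0 p.2)]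

/-- The tree average as an iterated integral. -/
lemma integral_treeLog (hG : RSB.Lip L G) (hn : 1 ≤ n) :
    Integrable (treeLog (n := n) k m R G) (markLaw n k ι) ∧
      ∫ w, treeLog (n := n) k m R G w ∂markLaw n k ι = ∫ h, ∫ w, lrho k m R G (rootPt R h) w
        ∂(Measure.pi fun _ : Node n k => nodeMark ι) ∂stdGaussian _ := by
  have hmp := measurePreserving_marks (ι := ι) n k
  have hms : AEStronglyMeasurable (treeLog (n := n) k m R G) (markLaw n k ι) :=
    (measurable_treeLog hG.meas).aestronglyMeasurable
  have hi := integrable_lrho_root hm hs (R := R) hG hn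
  have he : (fun p : EuclideanSpace ℝ ι × (Node n k → ℝ × EuclideanSpace ℝ ι) =>
      lrho k m R G (rootPt R p.1) p.2) =ᵐ[(stdGaussian _).prod (Measure.pi fun _ : Node n k => nodeMark ι)]
      fun p => treeLog (n := n) k m R G
        ((fun u => (p.2 u).1), fun o : Option (Node n k) => o.elim p.1 fun u => (p.2 u).2) :=
    (Measure.quasiMeasurePreserving_snd.ae ae_mark_pos).mono fun p hp =>
      (treeLog_marks hn p.1 hp).symm
  refine ⟨(hmp.integrable_comp hms).1 (hi.congr he), ?_⟩
  rw [← hmp.map_eq, integral_map hmp.measurable.aemeasurable (by rwa [hmp.map_eq]),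
    ← integral_congr_ae he, integral_prod _ hi]

/-- The limit of the tree average. -/
theorem tendsto_treeLog_aux (hG : RSB.Lip L G) :
    Tendsto (fun n => ∫ w, treeLog (n := n) k m R G w ∂markLaw n k ι) atTop
      (𝓝 (nestRoot k m R G)) := by
  set ψ := fun (n : ℕ) (x : EuclideanSpace ℝ ι) =>
    ∫ w, lrho k m R G x w ∂Measure.pi fun _ : Node n k => nodeMark ι with hψ
  have hl : ∀ x, Tendsto (fun n => ψ n x) atTop (𝓝 (nestVal k m R G x)) := fun x =>
    tendsto_lrho hm hs hG x
  obtain ⟨B, hB⟩ := (hl 0).abs.bddAbove_range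
  have hlip : ∀ n, 1 ≤ n → ∀ x, |ψ n x - ψ n 0| ≤ L * ‖x‖ := fun n hn x => by
    simp only [hψ]
    rw [← integral_sub (integrable_lrho hm hs hG hn x) (integrable_lrho hm hs hG hn 0), ← Real.norm_eq_abs]
    refine (norm_integral_le_of_norm_le_const (C := L * ‖x‖) (ae_mark_pos.mono fun w hw => ?_)).trans_eq
      (by rw [probReal_univ, mul_one])
    simpa using abs_lrho_sub_le (m := m) (R := R) hG hn 0 x hw
  refine Tendsto.congr' ((eventually_ge_atTop 1).mono fun n hn => (integral_treeLog hm hs hG hn).2.symm) ?_
  refine tendsto_integral_filter_of_dominated_convergence (fun h => B + L * ‖rootPt R h‖)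
    ((eventually_ge_atTop 1).mono fun n hn =>
      (integrable_lrho_root hm hs hG hn).integral_prod_left.aestronglyMeasurable)
    ((eventually_ge_atTop 1).mono fun n hn => Eventually.of_forall fun h => ?_)
    ((integrable_const B).add ((integrable_norm_rootPt R).const_mul L))
    (Eventually.of_forall fun h => hl _)
  rw [Real.norm_eq_abs]
  linarith [hB ⟨n, rfl⟩, hlip n hn (rootPt R h), abs_sub_abs_le_abs_sub (ψ n (rootPt R h)) (ψ n 0)]

/-- The deviation from the nested value given the root. -/
theorem treeLog_dev_aux (hG : RSB.Lip L G) :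
    ∀ᶠ n in atTop, ∫ w, |treeLog (n := n) k m R G w - nestVal k m R G (rootPt R (w.2 none))|
      ∂markLaw n k ι ≤ devConst k m + 1 := by
  set D := devConst k m
  set f := fun (n : ℕ) (x : EuclideanSpace ℝ ι) =>
    ∫ w, |lrho k m R G x w - nestVal k m R G x| ∂Measure.pi fun _ : Node n k => nodeMark ι with hf
  have hpos : ∀ j, 1 ≤ j → j ≤ k → 0 < m j := fun j h1 h2 => (hm j h1 h2).1
  have hmn := measurable_nestVal (R := R) hpos hG
  have hpi : ∀ n, 1 ≤ n → Integrable
      (fun p : EuclideanSpace ℝ ι × (Node n k → ℝ × EuclideanSpace ℝ ι) =>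
        |lrho k m R G (rootPt R p.1) p.2 - nestVal k m R G (rootPt R p.1)|)
      ((stdGaussian _).prod (Measure.pi fun _ : Node n k => nodeMark ι)) := fun n hn => by
    have hv : Integrable (fun h => nestVal k m R G (rootPt R h)) (stdGaussian (EuclideanSpace ℝ ι)) := by
      refine ((integrable_const |nestVal k m R G 0|).add ((integrable_norm_rootPt R).const_mul L)).mono'
        (hmn.comp (measurable_rootPt R)).aestronglyMeasurable (Eventually.of_forall fun h => ?_)
      have h1 := lip_nestVal (R := R) hm hG 0 (rootPt R h)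
      rw [zero_add] at h1
      simp only [Real.norm_eq_abs, Pi.add_apply]
      linarith [abs_sub_abs_le_abs_sub (nestVal k m R G (rootPt R h)) (nestVal k m R G 0)]
    exact ((integrable_lrho_root hm hs hG hn).sub' (hv.comp_fst _)).abs
  have hint : ∀ n, 1 ≤ n → ∀ x, Integrable (fun w => |lrho k m R G x w - nestVal k m R G x|)
      (Measure.pi fun _ : Node n k => nodeMark ι) := fun n hn x =>
    ((integrable_lrho hm hs hG hn x).sub' (integrable_const _)).abs
  have hlip : ∀ n, 1 ≤ n → ∀ x, f n x ≤ f n 0 + 2 * L * ‖x‖ := fun n hn x => by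
    simp only [hf]
    refine (integral_mono_ae (hint n hn x) ((hint n hn 0).fun_add (integrable_const (2 * L * ‖x‖)))
      (ae_mark_pos.mono fun w hw => ?_)).trans_eq ?_
    · have h1 := abs_le.1 (abs_lrho_sub_le (m := m) (R := R) hG hn 0 x hw)
      have h2 := abs_le.1 (lip_nestVal (R := R) hm hG 0 x)
      rw [zero_add] at h1 h2
      have h3 := le_abs_self (lrho k m R G 0 w - nestVal k m R G 0)
      have h4 := neg_abs_le (lrho k m R G 0 w - nestVal k m R G 0)
      simp only
      rw [abs_le]
      constructor <;> linarith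
    · rw [integral_add (hint n hn 0) (integrable_const _)]
      simp
  have hg : Tendsto (fun n => ∫ h, max (f n (rootPt R h) - D) 0 ∂stdGaussian (EuclideanSpace ℝ ι))
      atTop (𝓝 0) := by
    have e0 : ∫ _h, (0 : ℝ) ∂stdGaussian (EuclideanSpace ℝ ι) = 0 := by simp
    nth_rewrite 2 [← e0]
    refine tendsto_integral_filter_of_dominated_convergence (fun h => |D| + |D + 1| + 2 * L * ‖rootPt R h‖)
      ((eventually_ge_atTop 1).mono fun n hn =>
        ((hpi n hn).integral_prod_left.sub (integrable_const D)).pos_part.aestronglyMeasurable)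
      ?_ ((integrable_const _).add ((integrable_norm_rootPt R).const_mul _))
      (Eventually.of_forall fun h => ?_)
    · filter_upwards [eventually_dev hm hs hG (0 : EuclideanSpace ℝ ι) one_pos (R := R),
        eventually_ge_atTop 1] with n h0 hn
      refine Eventually.of_forall fun h => ?_
      rw [Real.norm_eq_abs, abs_of_nonneg (le_max_right _ _)]
      refine max_le ?_ (by have := hG.nonneg; positivity)
      have := hlip n hn (rootPt R h)
      change f n 0 ≤ D + 1 at h0
      linarith [le_abs_self (D + 1), neg_abs_le D]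
    · rw [tendsto_order]
      refine ⟨fun a ha => Eventually.of_forall fun n => ha.trans_le (le_max_right _ _), fun a ha => ?_⟩
      filter_upwards [eventually_dev hm hs hG (rootPt R h) (half_pos ha) (R := R)] with n hn
      refine max_lt ?_ ha
      change f n (rootPt R h) ≤ D + a / 2 at hn
      linarith
  filter_upwards [hg.eventually_le_const one_pos, eventually_ge_atTop 1] with n h1 hn
  have hmp := measurePreserving_marks (ι := ι) n k
  have hmeas : Measurable fun w : (Node n k → ℝ) × (Option (Node n k) → EuclideanSpace ℝ ι) =>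
      |treeLog (n := n) k m R G w - nestVal k m R G (rootPt R (w.2 none))| :=
    ((measurable_treeLog hG.meas).sub (hmn.comp ((measurable_rootPt R).comp
      ((measurable_pi_apply none).comp measurable_snd)))).abs
  have he : (fun p : EuclideanSpace ℝ ι × (Node n k → ℝ × EuclideanSpace ℝ ι) =>
      |lrho k m R G (rootPt R p.1) p.2 - nestVal k m R G (rootPt R p.1)|)
      =ᵐ[(stdGaussian _).prod (Measure.pi fun _ : Node n k => nodeMark ι)]
      fun p => |treeLog (n := n) k m R G
        ((fun u => (p.2 u).1), fun o : Option (Node n k) => o.elim p.1 fun u => (p.2 u).2) -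
          nestVal k m R G (rootPt R p.1)| :=
    (Measure.quasiMeasurePreserving_snd.ae ae_mark_pos).mono fun p hp => by
      simp only [treeLog_marks hn p.1 hp]
  rw [← hmp.map_eq, integral_map hmp.measurable.aemeasurable hmeas.aestronglyMeasurable]
  simp only [Option.elim_none]
  rw [← integral_congr_ae he, integral_prod _ (hpi n hn)]
  have hfi := (hpi n hn).integral_prod_left
  refine (integral_mono hfi ((hfi.sub (integrable_const D)).pos_part.fun_add (integrable_const D))
    fun h => ?_).trans ?_
  · simp only [Pi.sub_apply]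
    linarith [le_max_left (f n (rootPt R h) - D) 0]
  · rw [integral_add (hfi.sub (integrable_const D)).pos_part (integrable_const D)]
    simp only [Pi.sub_apply, integral_const, probReal_univ, one_smul]
    change (∫ h, max (f n (rootPt R h) - D) 0 ∂_) + D ≤ D + 1
    linarith

end Vale.Agent.P166F
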